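import Crest.Agent.N250.Re.Comm

/-!
# Row 250, realisation, part 3 (helper86): the ring of smooth functions on the track is an `IsMov`
-/

set_option autoImplicit false
open MeasureTheory Set Filter Topology Function
open scoped ContDiff InnerProductSpace
open Crest.GeometryTopology.MCF

noncomputable section

namespace Crest.Agent.N250

/-- `IsHyp` from the commutation rule -/
theorem Mov.isHyp_of {R : Type} [CommRing R] [Algebra ℝ R] {ι : Type} [Fintype ι] [DecidableEq ι]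
    (S : Mov R ι) (add : ∀ a f g, S.D a (f + g) = S.D a f + S.D a g)
    (mul : ∀ a f g, S.D a (f * g) = f * S.D a g + S.D a f * g)
    (const : ∀ a (r : ℝ), S.D a (algebraMap ℝ R r) = 0) (nn : ∑ a, S.n a * S.n a = 1)
    (Pn : ∀ a b, S.P a b = (if a = b then 1 else 0) - S.n a * S.n b)
    (nD : ∀ f, ∑ a, S.n a * S.D a f = 0)
    (comm : ∀ f a b, S.D a (S.D b f) = S.D b (S.D a f) + S.n a * ∑ c, S.B b c * S.D c f
      - S.n b * ∑ c, S.B a c * S.D c f) : S.IsHyp := by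
  have Pa : ∀ (Y : ι → R) a, ∑ b, S.P a b * Y b = Y a - S.n a * ∑ b, S.n b * Y b := fun Y a => by
    simp only [Pn, sub_mul, Finset.sum_sub_distrib, ite_mul, one_mul, zero_mul,
      Finset.sum_ite_eq, Finset.mem_univ, if_true, Finset.mul_sum, mul_assoc]
  have z : ∀ a, S.D a 0 = 0 := fun a => by simpa using const a 0
  have ds : ∀ a (f : ι → R), S.D a (∑ k, f k) = ∑ k, S.D a (f k) := fun a f =>
    map_sum (AddMonoidHom.mk' (S.D a) (add a)) f _
  have nDD : ∀ f a, ∑ c, S.n c * S.D a (S.D c f) = -∑ c, S.B a c * S.D c f := fun f a => by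
    have h1 : S.D a (∑ c, S.n c * S.D c f) = 0 := by rw [nD, z]
    rw [ds] at h1
    simp only [mul, Finset.sum_add_distrib] at h1
    exact eq_neg_of_add_eq_zero_left h1
  refine ⟨⟨add, mul, const, fun a b => ?_, fun f a => ?_, fun f a b => ?_⟩, nn, Pn⟩
  · rw [Pn, Pn, mul_comm]; simp only [eq_comm]
  · rw [Pa, nD]; ring
  · rw [N222.Pre.hess, N222.Pre.hess, Pa, Pa, nDD, nDD, comm f a b]; ring

namespace Mv

variable (F : Mv)

/-- extension by zero -/
def ext0 (u : F.M → ℝ) (p : ST) : ℝ := by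
  classical exact if h : p ∈ F.M then u ⟨p, h⟩ else 0

variable {F} in
theorem ext0_apply (u : F.M → ℝ) {p : ST} (hp : p ∈ F.M) : F.ext0 u p = u ⟨p, hp⟩ := dif_pos hp

/-- smooth functions on the track -/
def SmR : Subalgebra ℝ (F.M → ℝ) where
  carrier := {u | F.Sm (F.ext0 u)}
  mul_mem' {u v} hu hv := (Sm.mul hu hv).congr fun q hq => by simp [ext0_apply _ hq]
  add_mem' {u v} hu hv := (Sm.add hu hv).congr fun q hq => by simp [ext0_apply _ hq]
  algebraMap_mem' r := (sm_const r).congr fun q hq => by simp [ext0_apply _ hq]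

variable {F}

/-- the class of a smooth ambient function -/
def mk' (f : ST → ℝ) (hf : F.Sm f) : F.SmR :=
  ⟨fun q => f q, hf.congr fun _ hq => ext0_apply _ hq⟩

/-- evaluation at a point of the track -/
def ev {p : ST} (hp : p ∈ F.M) : F.SmR →ₐ[ℝ] ℝ := (Pi.evalAlgHom ℝ _ ⟨p, hp⟩).comp F.SmR.val

@[simp] theorem ev_mk {p : ST} (hp : p ∈ F.M) (f : ST → ℝ) (hf : F.Sm f) :
    ev hp (mk' f hf) = f p := rfl

theorem SmR_ext {u v : F.SmR} (h : ∀ p (hp : p ∈ F.M), ev hp u = ev hp v) : u = v :=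
  Subtype.ext (funext fun q => h q.1 q.2)

theorem mk_ext0 (u : F.SmR) : mk' (F.ext0 u.1) u.2 = u :=
  SmR_ext fun _ hp => ext0_apply _ hp

theorem exists_mk (u : F.SmR) : ∃ f hf, u = mk' f hf := ⟨_, _, (mk_ext0 u).symm⟩

theorem mk_add {f g : ST → ℝ} (hf : F.Sm f) (hg : F.Sm g) :
    mk' f hf + mk' g hg = mk' (f + g) (hf.add hg) := rfl

theorem mk_mul {f g : ST → ℝ} (hf : F.Sm f) (hg : F.Sm g) :
    mk' f hf * mk' g hg = mk' (f * g) (hf.mul hg) := rfl

theorem mk_sub {f g : ST → ℝ} (hf : F.Sm f) (hg : F.Sm g) :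
    mk' f hf - mk' g hg = mk' (f - g) (hf.sub hg) := rfl

theorem mk_neg {f : ST → ℝ} (hf : F.Sm f) : -mk' f hf = mk' (-f) hf.neg := rfl

theorem mk_const (r : ℝ) : algebraMap ℝ F.SmR r = mk' (fun _ => r) (sm_const r) := rfl

theorem mk_sum {κ : Type} (s : Finset κ) {f : κ → ST → ℝ} (hf : ∀ i, F.Sm (f i)) :
    ∑ i ∈ s, mk' (f i) (hf i) = mk' (∑ i ∈ s, f i) (Sm.sum fun i _ => hf i) :=
  SmR_ext fun p hp => by simp only [map_sum, ev_mk, Finset.sum_apply]

theorem mk_congr {f g : ST → ℝ} (hf : F.Sm f) (hg : F.Sm g) (e : ∀ p ∈ F.M, f p = g p) :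
    mk' f hf = mk' g hg := SmR_ext e

namespace Reg

variable (h : F.Reg)

/-- the delta-calculus on smooth functions -/
def mov : Mov F.SmR (Fin 3) where
  x a := mk' (F.pre.x a) (sm_x a)
  D a u := mk' (F.D a (F.ext0 u.1)) (h.sm_D u.2 a)
  T u := mk' (F.Dt (F.ext0 u.1)) (h.sm_Dt u.2)
  n a := mk' (F.nu a) (h.sm_nu a)
  V := mk' F.V h.sm_V

variable {f g : ST → ℝ}

theorem mov_x (a : Fin 3) : h.mov.x a = mk' (F.pre.x a) (sm_x a) := rfl
theorem mov_n (a : Fin 3) : h.mov.n a = mk' (F.nu a) (h.sm_nu a) := rfl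
theorem mov_V : h.mov.V = mk' F.V h.sm_V := rfl

theorem mov_D (hf : F.Sm f) (a : Fin 3) : h.mov.D a (mk' f hf) = mk' (F.D a f) (h.sm_D hf a) :=
  SmR_ext fun _ hp => D_congr' hp (fun _ hq => ext0_apply _ hq) a

theorem mov_T (hf : F.Sm f) : h.mov.T (mk' f hf) = mk' (F.Dt f) (h.sm_Dt hf) :=
  SmR_ext fun _ hp => Dt_congr' hp fun _ hq => ext0_apply _ hq

include h

theorem sm_P (a b : Fin 3) : F.Sm (F.P a b) := h.sm_D (sm_x b) a
theorem sm_A (a b : Fin 3) : F.Sm (F.A a b) := h.sm_D (h.sm_nu b) a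
theorem sm_H : F.Sm F.H := Sm.sum fun a _ => h.sm_A a a
theorem sm_A2 : F.Sm F.A2 := Sm.sum fun a _ => Sm.sum fun b _ => (h.sm_A a b).mul (h.sm_A a b)
theorem sm_gam (hf : F.Sm f) (hg : F.Sm g) : F.Sm (F.gam f g) :=
  Sm.sum fun a _ => (h.sm_D hf a).mul (h.sm_D hg a)
theorem sm_lap (hf : F.Sm f) : F.Sm (F.lap f) := Sm.sum fun a _ => h.sm_D (h.sm_D hf a) a
theorem sm_box (hf : F.Sm f) : F.Sm (F.box f) := (h.sm_Dt hf).sub (h.sm_lap hf)
theorem sm_hess (hf : F.Sm f) (a b : Fin 3) : F.Sm (F.pre.hess f a b) :=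
  Sm.sum fun c _ => (h.sm_P b c).mul (h.sm_D (h.sm_D hf c) a)
theorem sm_DL (hf : F.Sm f) (l : List (Fin 3)) : F.Sm (F.DL l f) := by
  induction l with
  | nil => exact hf
  | cons a l ih => exact h.sm_D ih a
theorem sm_xn (y : E) : F.Sm (F.xn y) :=
  ContDiffOn.inner ℝ (contDiffOn_fst.sub contDiffOn_const) h.sm_n
theorem sm_shr : F.Sm F.shr := ContDiffOn.sub h.sm_H ((h.sm_xn 0).div_const 2)
theorem sm_K : F.Sm F.K := ((ContDiffOn.pow h.sm_H 2).sub h.sm_A2).div_const 2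
theorem sm_nab2A (a b c : Fin 3) : F.Sm (F.pre.nab2 F.A a b c) :=
  Sm.sum fun e _ => Sm.sum fun f _ => ((h.sm_P b e).mul (h.sm_P c f)).mul (h.sm_D (h.sm_A e f) a)
theorem sm_GA : F.Sm F.GA := Sm.sum fun a _ => Sm.sum fun b _ => Sm.sum fun c _ =>
  (h.sm_nab2A a b c).mul (h.sm_nab2A a b c)

theorem mov_P (a b : Fin 3) : h.mov.P a b = mk' (F.P a b) (h.sm_P a b) := h.mov_D (sm_x b) a
theorem mov_B (a b : Fin 3) : h.mov.B a b = mk' (F.A a b) (h.sm_A a b) := h.mov_D (h.sm_nu b) a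
theorem mov_h : h.mov.h = mk' F.H h.sm_H := by
  simp only [Mov.h, h.mov_B, mk_sum]; rfl
theorem mov_a2 : h.mov.a2 = mk' F.A2 h.sm_A2 := by
  simp only [Mov.a2, h.mov_B, mk_mul, mk_sum]; rfl
theorem mov_gam (hf : F.Sm f) (hg : F.Sm g) :
    h.mov.gam (mk' f hf) (mk' g hg) = mk' (F.gam f g) (h.sm_gam hf hg) := by
  simp only [N222.Pre.gam, h.mov_D, mk_mul, mk_sum]
theorem mov_lap (hf : F.Sm f) : h.mov.lap (mk' f hf) = mk' (F.lap f) (h.sm_lap hf) := by
  simp only [N222.Pre.lap, h.mov_D, mk_sum]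
theorem mov_box (hf : F.Sm f) : h.mov.box (mk' f hf) = mk' (F.box f) (h.sm_box hf) := by
  simp only [Mov.box, h.mov_T, h.mov_lap, mk_sub]; rfl
theorem mov_hess (hf : F.Sm f) (a b : Fin 3) :
    h.mov.hess (mk' f hf) a b = mk' (F.pre.hess f a b) (h.sm_hess hf a b) := by
  simp only [N222.Pre.hess, h.mov_D, h.mov_P, mk_mul, mk_sum]
theorem mov_Dw (hf : F.Sm f) (l : List (Fin 3)) :
    h.mov.Dw l (mk' f hf) = mk' (F.DL l f) (h.sm_DL hf l) := by
  induction l with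
  | nil => rfl
  | cons a l ih => rw [Mov.Dw, ih, h.mov_D]; rfl
theorem mov_w : h.mov.w = mk' (F.V + F.H) (h.sm_V.add h.sm_H) := by
  rw [Mov.w, h.mov_h]; rfl
theorem mov_xn : h.mov.xn = mk' (F.xn 0) (h.sm_xn 0) := SmR_ext fun p hp => by
  simp only [Mov.xn, map_sum, map_mul, h.mov_x, h.mov_n, ev_mk, xn, sub_zero, inner_eq_sum]; rfl

theorem isHyp : h.mov.IsHyp := by
  refine h.mov.isHyp_of (fun a u v => ?_) (fun a u v => ?_) (fun a r => ?_) ?_ (fun a b => ?_)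
    (fun u => ?_) fun u a b => ?_
  · obtain ⟨f, hf, rfl⟩ := exists_mk u
    obtain ⟨g, hg, rfl⟩ := exists_mk v
    simp only [mk_add, h.mov_D]
    exact SmR_ext fun p hp => h.td_add hp (hf.diffW hp) (hg.diffW hp) (h.tg_PL hp _)
  · obtain ⟨f, hf, rfl⟩ := exists_mk u
    obtain ⟨g, hg, rfl⟩ := exists_mk v
    simp only [mk_mul, mk_add, h.mov_D]
    exact SmR_ext fun p hp => h.td_mul hp (hf.diffW hp) (hg.diffW hp) (h.tg_PL hp _)
  · rw [mk_const, h.mov_D]
    exact SmR_ext fun p hp => h.td_const hp r (h.tg_PL hp _)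
  · exact SmR_ext fun p hp => by
      simp only [map_sum, map_mul, h.mov_n, ev_mk, map_one, h.nn hp]
  · refine SmR_ext fun p hp => ?_
    rw [h.mov_P, ev_mk, h.P_eq hp, map_sub, map_mul]
    congr 1
    split_ifs <;> simp
  · obtain ⟨f, hf, rfl⟩ := exists_mk u
    exact SmR_ext fun p hp => by
      simp only [map_sum, map_mul, h.mov_n, h.mov_D, ev_mk, map_zero, h.n_D hp]
  · obtain ⟨f, hf, rfl⟩ := exists_mk u
    exact SmR_ext fun p hp => by
      simp only [map_sum, map_mul, map_add, map_sub, h.mov_n, h.mov_D, h.mov_B, ev_mk,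
        h.DD_comm hp hf a b]

theorem isMov : h.mov.IsMov := by
  refine ⟨h.isHyp, fun u v => ?_, fun u v => ?_, fun r => ?_, fun a => ?_, fun a u => ?_⟩
  · obtain ⟨f, hf, rfl⟩ := exists_mk u
    obtain ⟨g, hg, rfl⟩ := exists_mk v
    simp only [mk_add, h.mov_T]
    exact SmR_ext fun p hp => h.td_add hp (hf.diffW hp) (hg.diffW hp) (h.tg_vel hp)
  · obtain ⟨f, hf, rfl⟩ := exists_mk u
    obtain ⟨g, hg, rfl⟩ := exists_mk v
    simp only [mk_mul, mk_add, h.mov_T]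
    exact SmR_ext fun p hp => h.td_mul hp (hf.diffW hp) (hg.diffW hp) (h.tg_vel hp)
  · rw [mk_const, h.mov_T]
    exact SmR_ext fun p hp => h.td_const hp r (h.tg_vel hp)
  · rw [h.mov_x, h.mov_T]
    exact SmR_ext fun p hp => h.td_x hp (h.tg_vel hp) a
  · obtain ⟨f, hf, rfl⟩ := exists_mk u
    exact SmR_ext fun p hp => by
      simp only [map_sum, map_mul, map_add, map_sub, h.mov_n, h.mov_D, h.mov_B, h.mov_T, h.mov_V,
        h.mov_gam, ev_mk, h.Dt_D hp hf a]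

end Reg

theorem IsMCF.mov_w (h : F.IsMCF) : h.1.mov.w = 0 := by
  rw [h.1.mov_w]
  exact SmR_ext fun p hp => by rw [ev_mk, Pi.add_apply, h.2 p hp, map_zero, neg_add_cancel]

theorem IsRMCF.mov_w (h : F.IsRMCF) : h.1.mov.w = algebraMap ℝ _ (1 / 2) * h.1.mov.xn := by
  rw [h.1.mov_w, h.1.mov_xn]
  exact SmR_ext fun p hp => by
    rw [ev_mk, Pi.add_apply, h.2 p hp, map_mul, ev_mk, AlgHom.commutes, shr]
    simp only [Algebra.algebraMap_self, RingHom.id_apply]; ring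

end Mv

end Crest.Agent.N250

end
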