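import Crest.Agent.N250.Re.Basic
import Crest.Agent.N250.G.Bern

/-!
# Row 250, realisation, part 2 (helper86): calculus of `td`, commutators
-/

set_option autoImplicit false
open MeasureTheory Set Filter Topology Function
open scoped ContDiff InnerProductSpace
open Crest.GeometryTopology.MCF

noncomputable section

namespace Crest.Agent.N250

theorem two_le_inf : minSmoothness ℝ 2 ≤ ∞ := by
  rw [minSmoothness_of_isRCLikeNormedField]; exact WithTop.coe_le_coe.2 le_top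

namespace Mv

variable {F : Mv} {p q w : ST}

section Sm

variable {G : Type} [NormedAddCommGroup G] [NormedSpace ℝ G] {f g : ST → G}

theorem Sm.diffW (hf : F.Sm f) (hp : p ∈ F.M) : DifferentiableWithinAt ℝ f F.M p :=
  (hf p hp).differentiableWithinAt (by simp)

theorem Sm.hasF (hf : F.Sm f) (hp : p ∈ F.M) : HasFDerivWithinAt f (F.td f p) F.M p :=
  (hf.diffW hp).hasFDerivWithinAt

theorem Sm.congr (hf : F.Sm f) (e : ∀ q ∈ F.M, g q = f q) : F.Sm g := ContDiffOn.congr hf e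

theorem sm_const (c : G) : F.Sm fun _ => c := contDiffOn_const

theorem Sm.add (hf : F.Sm f) (hg : F.Sm g) : F.Sm (f + g) := ContDiffOn.add hf hg

theorem Sm.sub (hf : F.Sm f) (hg : F.Sm g) : F.Sm (f - g) := ContDiffOn.sub hf hg

theorem Sm.neg (hf : F.Sm f) : F.Sm (-f) := ContDiffOn.neg hf

theorem Sm.mul {f g : ST → ℝ} (hf : F.Sm f) (hg : F.Sm g) : F.Sm (f * g) := ContDiffOn.mul hf hg

theorem Sm.sum {κ : Type} {s : Finset κ} {f : κ → ST → G} (hf : ∀ i ∈ s, F.Sm (f i)) :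
    F.Sm (∑ i ∈ s, f i) :=
  (ContDiffOn.sum hf).congr fun _ _ => Finset.sum_apply _ _ _

theorem sm_of_contDiff (hf : ContDiff ℝ ∞ f) : F.Sm f := hf.contDiffOn

theorem sm_x (a : Fin 3) : F.Sm (F.pre.x a) :=
  ((EuclideanSpace.proj (𝕜 := ℝ) a).contDiff.comp contDiff_fst).contDiffOn

theorem sm_t : F.Sm fun q : ST => q.2 := contDiff_snd.contDiffOn

theorem td_congr (hp : p ∈ F.M) (e : f =ᶠ[𝓝[F.M] p] g) : F.td f p = F.td g p :=
  e.fderivWithin_eq_of_mem hp

theorem td_congr' (hp : p ∈ F.M) (e : ∀ q ∈ F.M, f q = g q) : F.td f p = F.td g p :=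
  fderivWithin_congr' e hp

end Sm

theorem D_apply (a : Fin 3) (f : ST → ℝ) (p : ST) : F.D a f p = F.td f p (F.PL p (ee a), 0) := rfl

theorem D_congr' {f g : ST → ℝ} (hp : p ∈ F.M) (e : ∀ q ∈ F.M, f q = g q) (a : Fin 3) :
    F.D a f p = F.D a g p := by rw [D_apply, D_apply, td_congr' hp e]

theorem Dt_congr' {f g : ST → ℝ} (hp : p ∈ F.M) (e : ∀ q ∈ F.M, f q = g q) :
    F.Dt f p = F.Dt g p := by rw [Dt, Dt, td_congr' hp e]

theorem D_congr {f g : ST → ℝ} (hp : p ∈ F.M) (e : f =ᶠ[𝓝[F.M] p] g) (a : Fin 3) :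
    F.D a f p = F.D a g p := by rw [D_apply, D_apply, td_congr hp e]

theorem Dt_congr {f g : ST → ℝ} (hp : p ∈ F.M) (e : f =ᶠ[𝓝[F.M] p] g) :
    F.Dt f p = F.Dt g p := by rw [Dt, Dt, td_congr hp e]

theorem PL_sum (p : ST) (v : E) : F.PL p v = ∑ a, v a • F.PL p (ee a) := by
  conv_lhs => rw [eq_sum_ee v]
  simp only [PL, inner_sum, inner_smul_right, Finset.sum_smul, smul_sub, Finset.sum_sub_distrib,
    smul_smul]

theorem PL_apply (p : ST) (v : E) (b : Fin 3) : F.PL p v b = v b - ⟪F.n p, v⟫_ℝ * F.nu b p := rfl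

theorem PL_ee (p : ST) (a b : Fin 3) :
    F.PL p (ee a) b = (if a = b then 1 else 0) - F.nu a p * F.nu b p := by
  rw [PL_apply, inner_ee]
  simp [ee, eq_comm, nu]

theorem PL_of_perp {v : E} (hv : ⟪F.n p, v⟫_ℝ = 0) : F.PL p v = v := by
  rw [PL, hv, zero_smul, sub_zero]

/-- derivative along a spatial tangent vector -/
theorem td_PL (f : ST → ℝ) (p : ST) (v : E) :
    F.td f p (F.PL p v, 0) = ∑ a, v a * F.D a f p := by
  have : ((F.PL p v, 0) : ST) = ∑ a, v a • ((F.PL p (ee a), 0) : ST) := by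
    rw [PL_sum]; ext1 <;> simp [Prod.fst_sum, Prod.snd_sum]
  rw [this, map_sum]
  exact Finset.sum_congr rfl fun a _ => by rw [map_smul]; rfl

theorem td_perp (f : ST → ℝ) {v : E} (hv : ⟪F.n p, v⟫_ℝ = 0) :
    F.td f p (v, 0) = ∑ a, v a * F.D a f p := by rw [← td_PL, PL_of_perp hv]

namespace Reg

variable (h : F.Reg)
include h

section Td

variable {G : Type} [NormedAddCommGroup G] [NormedSpace ℝ G] {f g : ST → G}

theorem td_add (hp : p ∈ F.M) (hf : DifferentiableWithinAt ℝ f F.M p)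
    (hg : DifferentiableWithinAt ℝ g F.M p) (hw : F.Tg p w) :
    F.td (f + g) p w = F.td f p w + F.td g p w :=
  h.td_eq hp (hf.hasFDerivWithinAt.add hg.hasFDerivWithinAt) hw

theorem td_const (hp : p ∈ F.M) (c : G) (hw : F.Tg p w) : F.td (fun _ => c) p w = 0 :=
  h.td_eq hp (hasFDerivWithinAt_const c p _) hw

theorem td_smul {c : ST → ℝ} (hp : p ∈ F.M) (hc : DifferentiableWithinAt ℝ c F.M p)
    (hf : DifferentiableWithinAt ℝ f F.M p) (hw : F.Tg p w) :
    F.td (fun q => c q • f q) p w = c p • F.td f p w + F.td c p w • f p :=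
  h.td_eq hp (hc.hasFDerivWithinAt.smul hf.hasFDerivWithinAt) hw

theorem td_mul {f g : ST → ℝ} (hp : p ∈ F.M) (hf : DifferentiableWithinAt ℝ f F.M p)
    (hg : DifferentiableWithinAt ℝ g F.M p) (hw : F.Tg p w) :
    F.td (f * g) p w = f p * F.td g p w + F.td f p w * g p :=
  h.td_smul hp hf hg hw

/-- chain rule -/
theorem td_comp {G' : Type} [NormedAddCommGroup G'] [NormedSpace ℝ G'] {ψ : G → G'}
    {L : G →L[ℝ] G'} (hp : p ∈ F.M) (hf : DifferentiableWithinAt ℝ f F.M p)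
    (hψ : HasFDerivAt ψ L (f p)) (hw : F.Tg p w) :
    F.td (fun q => ψ (f q)) p w = L (F.td f p w) :=
  h.td_eq hp (hψ.comp_hasFDerivWithinAt p hf.hasFDerivWithinAt) hw

theorem td_comp1 {f : ST → ℝ} {ψ : ℝ → ℝ} {d : ℝ} (hp : p ∈ F.M)
    (hf : DifferentiableWithinAt ℝ f F.M p) (hψ : HasDerivAt ψ d (f p)) (hw : F.Tg p w) :
    F.td (fun q => ψ (f q)) p w = d * F.td f p w := by
  rw [h.td_comp hp hf hψ.hasFDerivAt hw]; simp [mul_comm]

/-- components of the derivative of a vector valued function -/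
theorem td_coord {f : ST → E} (hp : p ∈ F.M) (hf : DifferentiableWithinAt ℝ f F.M p)
    (hw : F.Tg p w) (a : Fin 3) : F.td (fun q => f q a) p w = F.td f p w a :=
  h.td_comp (ψ := EuclideanSpace.proj (𝕜 := ℝ) a) hp hf (ContinuousLinearMap.hasFDerivAt _) hw

theorem td_x (hp : p ∈ F.M) (hw : F.Tg p w) (a : Fin 3) : F.td (F.pre.x a) p w = w.1 a :=
  h.td_eq hp (((EuclideanSpace.proj (𝕜 := ℝ) a).comp
    (ContinuousLinearMap.fst ℝ E ℝ)).hasFDerivAt.hasFDerivWithinAt) hw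

theorem td_t (hp : p ∈ F.M) (hw : F.Tg p w) : F.td (fun q : ST => q.2) p w = w.2 :=
  h.td_eq hp (ContinuousLinearMap.snd ℝ E ℝ).hasFDerivAt.hasFDerivWithinAt hw

/-- second derivatives along tangent fields through an ambient extension -/
theorem td_td {U : Set ST} (hU : IsOpen U) (hpU : p ∈ U) (hp : p ∈ F.M) (hg : ContDiffOn ℝ ∞ g U)
    (e : ∀ q ∈ U, q ∈ F.M → f q = g q) {X : ST → ST} (hX : F.Sm X)
    (hT : ∀ q ∈ F.M, F.Tg q (X q)) (hw : F.Tg p w) :
    F.td (fun q => F.td f q (X q)) p w =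
      fderiv ℝ (fderiv ℝ g) p w (X p) + fderiv ℝ g p (F.td X p w) := by
  have e1 : (fun q => F.td f q (X q)) =ᶠ[𝓝[F.M] p] fun q => fderiv ℝ g q (X q) := by
    filter_upwards [nhdsWithin_le_nhds (hU.mem_nhds hpU), self_mem_nhdsWithin] with q hq hqM
    refine h.td_ext hqM ((hg.contDiffAt (hU.mem_nhds hq)).differentiableAt (by simp)) ?_ (hT q hqM)
    filter_upwards [nhdsWithin_le_nhds (hU.mem_nhds hq), self_mem_nhdsWithin] with r hr hrM
      using e r hr hrM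
  have d1 : HasFDerivAt (fderiv ℝ g) (fderiv ℝ (fderiv ℝ g) p) p :=
    (((hg.contDiffAt (hU.mem_nhds hpU)).fderiv_right (m := ∞) (by simp)).differentiableAt
      (by simp)).hasFDerivAt
  rw [td_congr hp e1, h.td_eq hp (d1.hasFDerivWithinAt.clm_apply (hX.hasF hp)) hw]
  simp [add_comm]

/-- the bracket of two tangent fields is tangent -/
theorem tg_bracket (hp : p ∈ F.M) {X Y : ST → ST} (hX : F.Sm X) (hY : F.Sm Y)
    (hTX : ∀ q ∈ F.M, F.Tg q (X q)) (hTY : ∀ q ∈ F.M, F.Tg q (Y q)) :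
    F.Tg p (F.td X p (Y p) - F.td Y p (X p)) := by
  obtain ⟨W, φ, h1, h2⟩ := h p hp
  have e : ∀ q ∈ W, q ∈ F.M → (fun _ => (0 : ℝ)) q = φ q := fun q hq hM => ((h2.mem q hq).1 hM).symm
  have z : ∀ {X Y : ST → ST}, (∀ q ∈ F.M, F.Tg q (X q)) → F.Tg p (Y p) →
      F.td (fun q => F.td (fun _ => (0 : ℝ)) q (X q)) p (Y p) = 0 := fun hTX hY => by
    rw [td_congr' hp fun q hq => h.td_const hq (0 : ℝ) (hTX q hq), h.td_const hp _ hY]
  have a1 := h.td_td h2.isOpen h1 hp h2.sm e hX hTX (hTY p hp)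
  have a2 := h.td_td h2.isOpen h1 hp h2.sm e hY hTY (hTX p hp)
  rw [z hTX (hTY p hp)] at a1
  rw [z hTY (hTX p hp)] at a2
  have s := (h2.contDiffAt h1).isSymmSndFDerivAt two_le_inf (X p) (Y p)
  rw [h2.tg_iff h1 hp, map_sub]
  linarith

/-- the commutator of two tangent fields -/
theorem td_bracket (hp : p ∈ F.M) (hf : F.Sm f) {X Y : ST → ST} (hX : F.Sm X) (hY : F.Sm Y)
    (hTX : ∀ q ∈ F.M, F.Tg q (X q)) (hTY : ∀ q ∈ F.M, F.Tg q (Y q)) :
    F.td (fun q => F.td f q (X q)) p (Y p) = F.td (fun q => F.td f q (Y q)) p (X p)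
      + F.td f p (F.td X p (Y p) - F.td Y p (X p)) := by
  obtain ⟨U, g, h1, h2, h3, h4⟩ := h.exists_ext hf hp
  have s := (h3.contDiffAt (h1.mem_nhds h2)).isSymmSndFDerivAt two_le_inf (X p) (Y p)
  rw [h.td_td h1 h2 hp h3 h4 hX hTX (hTY p hp), h.td_td h1 h2 hp h3 h4 hY hTY (hTX p hp), s,
    h.td_ext hp ((h3.contDiffAt (h1.mem_nhds h2)).differentiableAt (by simp)) ?_
      (h.tg_bracket hp hX hY hTX hTY), map_sub]
  · abel
  · filter_upwards [nhdsWithin_le_nhds (h1.mem_nhds h2), self_mem_nhdsWithin] with r hr hrM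
      using h4 r hr hrM

end Td

variable {f g : ST → ℝ}

theorem sm_XD (a : Fin 3) : F.Sm fun q => ((F.PL q (ee a), 0) : ST) :=
  ContDiffOn.prodMk (h.sm_PL _) contDiffOn_const

theorem sm_XT : F.Sm fun q => ((F.V q • F.n q, 1) : ST) :=
  ContDiffOn.prodMk (ContDiffOn.smul h.sm_V h.sm_n) contDiffOn_const

theorem sm_D (hf : F.Sm f) (a : Fin 3) : F.Sm (F.D a f) :=
  h.sm_td hf (h.sm_XD a) fun _ hq => h.tg_PL hq _

theorem sm_Dt (hf : F.Sm f) : F.Sm (F.Dt f) := h.sm_td hf h.sm_XT fun _ hq => h.tg_vel hq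

theorem nn (hp : p ∈ F.M) : ∑ a, F.nu a p * F.nu a p = 1 := by
  rw [← h.inner_n hp, inner_eq_sum]; rfl

theorem P_eq (hp : p ∈ F.M) (a b : Fin 3) :
    F.P a b p = (if a = b then 1 else 0) - F.nu a p * F.nu b p := by
  rw [← PL_ee]; exact h.td_x hp (h.tg_PL hp _) b

theorem n_D (hp : p ∈ F.M) (f : ST → ℝ) : ∑ a, F.nu a p * F.D a f p = 0 := by
  have : F.PL p (F.n p) = 0 := by rw [PL, h.inner_n hp, one_smul, sub_self]
  have e := td_PL (F := F) f p (F.n p)
  rw [this, Prod.mk_zero_zero, map_zero] at e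
  exact e.symm

theorem td_n (hp : p ∈ F.M) (hw : F.Tg p w) (a : Fin 3) : F.td F.n p w a = F.td (F.nu a) p w :=
  (h.td_coord hp (h.sm_n.diffW hp) hw a).symm

theorem inner_td_n (hp : p ∈ F.M) (hw : F.Tg p w) : ⟪F.n p, F.td F.n p w⟫_ℝ = 0 := by
  have d := (h.sm_n.hasF hp).inner ℝ (h.sm_n.hasF hp)
  have e := h.td_eq hp d hw
  rw [td_congr' hp (g := fun _ => (1 : ℝ)) fun q hq => h.inner_n hq, h.td_const hp _ hw] at e
  simp only [ContinuousLinearMap.comp_apply, ContinuousLinearMap.prod_apply,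
    fderivInnerCLM_apply] at e
  rw [real_inner_comm (F.n p)] at e
  linarith

theorem td_XD (hp : p ∈ F.M) (hw : F.Tg p w) (a : Fin 3) :
    F.td (fun q => ((F.PL q (ee a), 0) : ST)) p w =
      (-(F.nu a p • F.td F.n p w + F.td (F.nu a) p w • F.n p), 0) := by
  have e : ∀ q, F.PL q (ee a) = ee a - F.nu a q • F.n q := fun q => by rw [PL, inner_ee]; rfl
  have d := (((hasFDerivWithinAt_const (ee a) p F.M).sub
    (((h.sm_nu a).hasF hp).smul (h.sm_n.hasF hp))).prodMk (hasFDerivWithinAt_const (0 : ℝ) p F.M))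
  simp only [e]
  refine (h.td_eq hp d hw).trans ?_
  simp

theorem td_XT (hp : p ∈ F.M) (hw : F.Tg p w) :
    F.td (fun q => ((F.V q • F.n q, 1) : ST)) p w =
      (F.V p • F.td F.n p w + F.td F.V p w • F.n p, 0) := by
  have d := (((h.sm_V.hasF hp).smul (h.sm_n.hasF hp))).prodMk
    (hasFDerivWithinAt_const (1 : ℝ) p F.M)
  refine (h.td_eq hp d hw).trans ?_
  simp

theorem td_td_n (hp : p ∈ F.M) (f : ST → ℝ) (hw : F.Tg p w) :
    F.td f p (F.td F.n p w, 0) = ∑ c, F.td (F.nu c) p w * F.D c f p := by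
  rw [td_perp f (h.inner_td_n hp hw)]
  simp only [h.td_n hp hw]

/-- the second fundamental form is symmetric -/
theorem A_symm (hp : p ∈ F.M) (a b : Fin 3) : F.A a b p = F.A b a p := by
  have t := h.tg_bracket hp (h.sm_XD a) (h.sm_XD b) (fun _ hq => h.tg_PL hq _)
    (fun _ hq => h.tg_PL hq _)
  rw [h.td_XD hp (h.tg_PL hp _), h.td_XD hp (h.tg_PL hp _), Tg] at t
  simp only [Prod.fst_sub, Prod.snd_sub, inner_sub_right, inner_neg_right, inner_add_right,
    inner_smul_right, h.inner_td_n hp (h.tg_PL hp _), h.inner_n hp] at t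
  change F.td (F.nu b) p _ = F.td (F.nu a) p _
  linarith

/-- commutator of two tangential derivatives -/
theorem DD_comm (hp : p ∈ F.M) (hf : F.Sm f) (a b : Fin 3) :
    F.D a (F.D b f) p = F.D b (F.D a f) p + F.nu a p * ∑ c, F.A b c p * F.D c f p
      - F.nu b p * ∑ c, F.A a c p * F.D c f p := by
  have t := h.td_bracket hp hf (h.sm_XD b) (h.sm_XD a) (fun _ hq => h.tg_PL hq _)
    (fun _ hq => h.tg_PL hq _)
  rw [h.td_XD hp (h.tg_PL hp _), h.td_XD hp (h.tg_PL hp _)] at t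
  have s : F.td (F.nu b) p (F.PL p (ee a), 0) = F.td (F.nu a) p (F.PL p (ee b), 0) :=
    h.A_symm hp a b
  have e : ((-(F.nu b p • F.td F.n p (F.PL p (ee a), 0)
        + F.td (F.nu b) p (F.PL p (ee a), 0) • F.n p), 0) : ST)
      - (-(F.nu a p • F.td F.n p (F.PL p (ee b), 0) + F.td (F.nu a) p (F.PL p (ee b), 0) • F.n p), 0)
      = F.nu a p • (F.td F.n p (F.PL p (ee b), 0), 0) - F.nu b p • (F.td F.n p (F.PL p (ee a), 0), 0) := by
    rw [s]; ext1
    · simp only [Prod.fst_sub, Prod.smul_fst]; abel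
    · simp
  rw [e, map_sub, map_smul, map_smul, h.td_td_n hp f (h.tg_PL hp _),
    h.td_td_n hp f (h.tg_PL hp _)] at t
  refine t.trans ?_
  simp only [smul_eq_mul]
  rw [add_sub_assoc]; rfl

theorem Dt_nu (hp : p ∈ F.M) (a : Fin 3) : F.Dt (F.nu a) p = -F.D a F.V p := by
  have t := h.tg_bracket hp (h.sm_XD a) h.sm_XT (fun _ hq => h.tg_PL hq _)
    (fun _ hq => h.tg_vel hq)
  rw [h.td_XD hp (h.tg_vel hp), h.td_XT hp (h.tg_PL hp _), Tg] at t
  simp only [Prod.fst_sub, Prod.snd_sub, inner_sub_right, inner_neg_right, inner_add_right,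
    inner_smul_right, h.inner_td_n hp (h.tg_PL hp _), h.inner_td_n hp (h.tg_vel hp),
    h.inner_n hp] at t
  change F.td (F.nu a) p _ = -F.td F.V p _
  linarith

/-- commutator of the time derivative and a tangential derivative -/
theorem Dt_D (hp : p ∈ F.M) (hf : F.Sm f) (a : Fin 3) :
    F.Dt (F.D a f) p = F.D a (F.Dt f) p + F.nu a p * F.gam F.V f p
      - F.V p * ∑ b, F.A a b p * F.D b f p := by
  have t := h.td_bracket hp hf (h.sm_XD a) h.sm_XT (fun _ hq => h.tg_PL hq _)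
    (fun _ hq => h.tg_vel hq)
  rw [h.td_XD hp (h.tg_vel hp), h.td_XT hp (h.tg_PL hp _)] at t
  have s : F.td (F.nu a) p (F.V p • F.n p, 1) = -F.td F.V p (F.PL p (ee a), 0) := h.Dt_nu hp a
  have e : ((-(F.nu a p • F.td F.n p (F.V p • F.n p, 1)
        + F.td (F.nu a) p (F.V p • F.n p, 1) • F.n p), 0) : ST)
      - (F.V p • F.td F.n p (F.PL p (ee a), 0) + F.td F.V p (F.PL p (ee a), 0) • F.n p, 0)
      = -(F.nu a p • (F.td F.n p (F.V p • F.n p, 1), 0))
        - F.V p • (F.td F.n p (F.PL p (ee a), 0), 0) := by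
    rw [s]; ext1
    · simp only [Prod.fst_sub, Prod.smul_fst, Prod.fst_neg, neg_smul]; abel
    · simp
  rw [e, map_sub, map_neg, map_smul, map_smul, h.td_td_n hp f (h.tg_PL hp _),
    h.td_td_n hp f (h.tg_vel hp)] at t
  refine t.trans ?_
  have s2 : ∑ c, F.td (F.nu c) p (F.V p • F.n p, 1) * F.D c f p = -F.gam F.V f p := by
    rw [Mv.gam, N222.Pre.gam, Finset.sum_apply, ← Finset.sum_neg_distrib]
    exact Finset.sum_congr rfl fun c _ => by
      rw [show F.td (F.nu c) p (F.V p • F.n p, 1) = -F.D c F.V p from h.Dt_nu hp c]; simp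
  rw [s2]
  simp only [smul_eq_mul, mul_neg, neg_neg]
  rw [add_sub_assoc]; rfl

end Reg

end Mv

end Crest.Agent.N250

end
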