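import Crest.Agent.N250.Re.Pt
import Crest.Agent.N250.FV.Var
import Crest.Agent.N228.O.Area

/-!
# Row 250, realisation, part 5 (helper86): time slices as `N222.Imm 2 (Fin 3)`
-/

set_option autoImplicit false
open MeasureTheory Set Filter Topology Function
open scoped ContDiff InnerProductSpace
open Crest.GeometryTopology.MCF

noncomputable section

namespace Crest.Agent.N250

open FV

namespace Mv

variable (F : Mv)

/-- restriction to a slice -/
def rs {G : Type} (t : ℝ) (f : ST → G) : F.sl t → G := fun x => f (x, t)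

/-- a function on a slice as a time independent ambient function -/
def lift (t : ℝ) (u : F.sl t → ℝ) (p : ST) : ℝ := by
  classical exact if h : p.1 ∈ F.sl t then u ⟨p.1, h⟩ else 0

variable {F}

theorem rs_apply {G : Type} (t : ℝ) (f : ST → G) (x : F.sl t) : F.rs t f x = f (x, t) := rfl

theorem lift_apply {t : ℝ} (u : F.sl t → ℝ) {p : ST} (hp : p.1 ∈ F.sl t) :
    F.lift t u p = u ⟨p.1, hp⟩ := dif_pos hp

theorem rs_lift {t : ℝ} (u : F.sl t → ℝ) : F.rs t (F.lift t u) = u :=
  funext fun x => lift_apply u x.2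

/-- restriction to a slice as a ring map -/
def rsHom (F : Mv) (t : ℝ) : (ST → ℝ) →+* (F.sl t → ℝ) :=
  RingHom.pi fun x => Pi.evalRingHom _ ((x, t) : ST)

section Chart

variable {X : E2 × ℝ → E} {U : Set (E2 × ℝ)} {W : Set ST} {L : E →L[ℝ] E2} {t : ℝ}

open Classical in
/-- the slice chart of a graph chart -/
def slChart (h : Ch F X U W L) (x₀ : F.sl t) : OpenPartialHomeomorph (F.sl t) E2 where
  toFun x := L x
  invFun z := if hz : (z, t) ∈ U then ⟨X (z, t), h.mem _ hz⟩ else x₀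
  source := {x | ((x : E), t) ∈ W}
  target := {z | (z, t) ∈ U}
  map_source' x hx := h.inU (x, t) x.2 hx
  map_target' z hz := by
    have hz' : (z, t) ∈ U := hz
    simp only [mem_ofPred_eq, dif_pos hz']
    exact h.memW _ hz
  left_inv' x hx := by
    have hz' : (L x, t) ∈ U := h.inU (x, t) x.2 hx
    simp only [dif_pos hz']
    exact Subtype.ext (h.right (x, t) x.2 hx)
  right_inv' z hz := by
    have hz' : (z, t) ∈ U := hz
    simp only [dif_pos hz']
    exact h.left _ hz
  open_source := (h.oWt t).preimage continuous_subtype_val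
  open_target := h.oUt t
  continuousOn_toFun := (L.continuous.comp continuous_subtype_val).continuousOn
  continuousOn_invFun := by
    rw [IsInducing.subtypeVal.continuousOn_iff]
    refine ContinuousOn.congr (f := fun z => X (z, t)) (h.sm.continuousOn.comp
      (Continuous.prodMk_left t).continuousOn fun _ hz => hz) fun z hz => ?_
    have hz' : (z, t) ∈ U := hz
    simp only [comp_apply, dif_pos hz']

theorem slChart_symm (h : Ch F X U W L) (x₀ : F.sl t) {z : E2} (hz : (z, t) ∈ U) :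
    ((slChart h x₀).symm z : E) = X (z, t) := by
  classical
  change ((if hz : (z, t) ∈ U then ⟨X (z, t), h.mem _ hz⟩ else x₀ : F.sl t) : E) = _
  rw [dif_pos hz]

theorem slChart_ev {G : Type} (h : Ch F X U W L) (x₀ : F.sl t) (f : ST → G) {z : E2}
    (hz : (z, t) ∈ U) :
    F.rs t f ∘ (slChart h x₀).symm =ᶠ[𝓝 z] fun y => f (Ps X (y, t)) := by
  filter_upwards [(h.oUt t).mem_nhds hz] with y hy
  rw [comp_apply, rs_apply, slChart_symm h x₀ hy]; rfl

theorem slChart_fd (h : Ch F X U W L) (x₀ : F.sl t) {z : E2} (hz : (z, t) ∈ U) :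
    fderiv ℝ (Subtype.val ∘ (slChart h x₀).symm) z = Jz X (z, t) :=
  (slChart_ev h x₀ Prod.fst hz).fderiv_eq.trans
    (HasFDerivAt.comp z (f := fun y : E2 => (y, t)) (h.hasX hz)
      (hasFDerivAt_prodMk_left z t)).fderiv

theorem slChart_isChart (h : Ch F X U W L) (x₀ : F.sl t) :
    N222.IsChart Subtype.val (slChart h x₀) :=
  ⟨(h.sm.comp (contDiff_prodMk_left t).contDiffOn fun _ hz => hz).congr
      fun _ hz => slChart_symm h x₀ hz,
    fun z hz => by rw [slChart_fd h x₀ hz]; exact h.inj hz⟩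

end Chart

namespace Reg

variable (h : F.Reg) (t : ℝ)

include h in
theorem exists_slChart (x : F.sl t) : ∃ e : OpenPartialHomeomorph (F.sl t) E2, x ∈ e.source ∧
    N222.IsChart Subtype.val e := by
  obtain ⟨X, U, W, L, h1, h2⟩ := exists_ch h (p := (x, t)) x.2
  exact ⟨slChart h2 x, h1, slChart_isChart h2 x⟩

/-- the slice as an immersed surface -/
def imm : N222.Imm 2 (Fin 3) (F.sl t) where
  x := Subtype.val
  ch x := (h.exists_slChart t x).choose
  mem x := (h.exists_slChart t x).choose_spec.1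
  isChart x := (h.exists_slChart t x).choose_spec.2

theorem imm_x : (h.imm t).x = Subtype.val := rfl

section

variable {G : Type} [NormedAddCommGroup G] [NormedSpace ℝ G] {f : ST → G}

theorem imm_sm (hf : F.Sm f) : (h.imm t).Sm (F.rs t f) := fun x =>
  ContDiffOn.comp (g := f) (f := fun z => ((((h.imm t).ch x).symm z : E), t)) hf
    (((h.imm t).isChart x).sm.prodMk contDiffOn_const) fun z _ => (((h.imm t).ch x).symm z).2

theorem imm_diffAt (x : F.sl t) (hf : DifferentiableWithinAt ℝ f F.M (x, t)) :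
    (h.imm t).DiffAt (F.rs t f) x := by
  have h1 : DifferentiableAt ℝ (fun z => ((((h.imm t).ch x).symm z : E), t)) ((h.imm t).ch x x) :=
    DifferentiableAt.prodMk ((h.imm t).sm_x.diffAt x) (differentiableAt_const t)
  have h2 : (((h.imm t).ch x).symm ((h.imm t).ch x x)) = x := ((h.imm t).ch x).left_inv
    ((h.imm t).mem x)
  exact (hf.hasFDerivWithinAt.comp_hasFDerivAt_of_eq _ h1.hasFDerivAt
    (Eventually.of_forall fun z => (((h.imm t).ch x).symm z).2) (by rw [h2])).differentiableAt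

theorem imm_td (x : F.sl t) (hf : DifferentiableWithinAt ℝ f F.M (x, t)) (w : E) :
    (h.imm t).td (F.rs t f) x w = F.td f (x, t) (F.PL (x, t) w, 0) := by
  obtain ⟨X, U, W, L, h1, h2⟩ := exists_ch h (p := (x, t)) x.2
  have hz : (L x, t) ∈ U := h2.inU (x, t) x.2 h1
  have hP : Ps X (L x, t) = (x.1, t) := Prod.ext (h2.right (x, t) x.2 h1) rfl
  rw [N222.Imm.td_chart _ (slChart_isChart h2 x) h1]
  change fderiv ℝ (F.rs t f ∘ (slChart h2 x).symm) (L x) (ContinuousLinearMap.adjoint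
    (N222.Lam (fderiv ℝ (Subtype.val ∘ (slChart h2 x).symm) (L x))) w) = _
  rw [← hP] at hf ⊢
  rw [slChart_fd h2 x hz, (slChart_ev h2 x f hz).fderiv_eq, ← h2.Jz_La h hz]
  exact congrArg (fun T : E2 →L[ℝ] G => T _)
    (HasFDerivAt.comp (L x) (f := fun y : E2 => (y, t)) (h2.hasF hz hf)
      (hasFDerivAt_prodMk_left _ t)).fderiv

end

theorem imm_PL (x : F.sl t) (w : E) : (h.imm t).PL x w = F.PL (x, t) w :=
  (h.imm_td t (f := Prod.fst) x differentiableWithinAt_fst w).trans
    (h.td_eq x.2 hasFDerivWithinAt_fst (h.tg_PL x.2 w))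

variable {f g : ST → ℝ}

theorem imm_D_at (x : F.sl t) (hf : DifferentiableWithinAt ℝ f F.M (x, t)) (a : Fin 3) :
    (h.imm t).pre.D a (F.rs t f) x = F.D a f (x, t) := h.imm_td t x hf _

theorem imm_D (hf : F.Sm f) (a : Fin 3) : (h.imm t).pre.D a (F.rs t f) = F.rs t (F.D a f) :=
  funext fun x => h.imm_D_at t x (hf.diffW x.2) a

theorem imm_pre_x (a : Fin 3) : (h.imm t).pre.x a = F.rs t (F.pre.x a) := rfl

/-- restriction of smooth functions on the track to a slice -/
def toSl (F : Mv) (t : ℝ) : F.SmR →+* (F.sl t → ℝ) :=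
  RingHom.pi fun x => (ev (p := (x, t)) x.2).toRingHom

theorem toSl_mk (hf : F.Sm f) : toSl F t (mk' f hf) = F.rs t f := rfl

theorem hom_toSl : h.mov.toPre.Hom (h.imm t).pre (toSl F t) where
  x _ := rfl
  D a u := by
    obtain ⟨f, hf, rfl⟩ := exists_mk u
    rw [h.mov_D, toSl_mk, toSl_mk, h.imm_D t hf]

theorem imm_P (a b : Fin 3) : (h.imm t).pre.P a b = F.rs t (F.P a b) := h.imm_D t (sm_x b) a

theorem imm_gam (hf : F.Sm f) (hg : F.Sm g) :
    (h.imm t).pre.gam (F.rs t f) (F.rs t g) = F.rs t (F.gam f g) := by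
  rw [← toSl_mk t hf, ← toSl_mk t hg, ← (h.hom_toSl t).gam, h.mov_gam, toSl_mk]

theorem imm_lap (hf : F.Sm f) : (h.imm t).pre.lap (F.rs t f) = F.rs t (F.lap f) := by
  rw [← toSl_mk t hf, ← (h.hom_toSl t).lap, h.mov_lap, toSl_mk]

theorem imm_hess (hf : F.Sm f) (a b : Fin 3) :
    (h.imm t).pre.hess (F.rs t f) a b = F.rs t (F.pre.hess f a b) := by
  rw [← toSl_mk t hf, ← (h.hom_toSl t).hess, h.mov_hess, toSl_mk]

theorem imm_II (a b c : Fin 3) (x : F.sl t) :
    (h.imm t).pre.II a b c x = -(F.A a b (x, t) * F.nu c (x, t)) := by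
  rw [← (h.hom_toSl t).II, h.isHyp.II_eq, h.mov_B, h.mov_n, mk_mul, mk_neg, toSl_mk]; rfl

theorem imm_H (c : Fin 3) (x : F.sl t) :
    (h.imm t).pre.H c x = -(F.H (x, t) * F.nu c (x, t)) := by
  rw [← (h.hom_toSl t).H, h.isHyp.H_eq, h.mov_h, h.mov_n, mk_mul, mk_neg, toSl_mk]; rfl

theorem imm_H2 (x : F.sl t) :
    ∑ c, (h.imm t).pre.H c x * (h.imm t).pre.H c x = F.H (x, t) ^ 2 := by
  simp only [h.imm_H, neg_mul_neg, mul_mul_mul_comm (F.H _), ← Finset.mul_sum, h.nn x.2]; ring

theorem imm_II2 (x : F.sl t) :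
    ∑ a, ∑ b, ∑ c, (h.imm t).pre.II a b c x * (h.imm t).pre.II a b c x = F.A2 (x, t) := by
  simp only [h.imm_II, neg_mul_neg, mul_mul_mul_comm (F.A _ _ _), ← Finset.mul_sum, h.nn x.2,
    mul_one, A2_apply]

theorem imm_scal (x : F.sl t) : (h.imm t).pre.scal x = 2 * F.K (x, t) := by
  have e := congrArg (ev (p := (x, t)) x.2) h.isHyp.toIsDS.scal_eq
  have e2 : ev (p := (x, t)) x.2 h.mov.scal = (h.imm t).pre.scal x :=
    congrFun (h.hom_toSl t).scal x
  have e3 : ∀ c, ev (p := (x, t)) x.2 (h.mov.H c) = (h.imm t).pre.H c x :=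
    fun c => congrFun ((h.hom_toSl t).H c) x
  have e4 : ∀ a b c, ev (p := (x, t)) x.2 (h.mov.II a b c) = (h.imm t).pre.II a b c x :=
    fun a b c => congrFun ((h.hom_toSl t).II a b c) x
  simp only [map_sub, map_sum, map_mul, e2, e3, e4, h.imm_H2, h.imm_II2] at e
  rw [e, K]; ring

theorem imm_DL (hf : F.Sm f) (l : List (Fin 3)) :
    l.foldr (h.imm t).pre.D (F.rs t f) = F.rs t (F.DL l f) := by
  induction l with
  | nil => rfl
  | cons a l ih => rw [List.foldr_cons, ih, h.imm_D t (h.sm_DL hf l)]; rfl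

/-! ### the measure -/

include h in
theorem imm_memb : MeasurableEmbedding (Subtype.val : F.sl t → E) :=
  N228.Ar.memb (h.imm t) IsEmbedding.subtypeVal

theorem imm_mu_comap : (h.imm t).mu = Measure.comap Subtype.val (μHE[2] : Measure E) :=
  (N228.Ar.comap_eq (h.imm t) IsEmbedding.subtypeVal).symm

theorem imm_mu : (h.imm t).mu.map Subtype.val = F.mu t := by
  rw [h.imm_mu_comap, (h.imm_memb t).map_comap, Subtype.range_coe]; rfl

theorem imm_mu_apply (s : Set E) : (h.imm t).mu (Subtype.val ⁻¹' s) = F.mu t s := by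
  rw [← h.imm_mu, (h.imm_memb t).map_apply]

theorem imm_integral {G : Type} [NormedAddCommGroup G] [NormedSpace ℝ G] (g : E → G) :
    ∫ x, g x ∂(h.imm t).mu = ∫ x, g x ∂F.mu t := by
  rw [← h.imm_mu, (h.imm_memb t).integral_map]

theorem imm_lintegral (g : E → ENNReal) : ∫⁻ x, g x ∂(h.imm t).mu = ∫⁻ x, g x ∂F.mu t := by
  rw [← h.imm_mu, (h.imm_memb t).lintegral_map]

theorem imm_integrable {G : Type} [NormedAddCommGroup G] (g : E → G) :
    Integrable (fun x : F.sl t => g x) (h.imm t).mu ↔ Integrable g (F.mu t) := by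
  rw [← h.imm_mu, (h.imm_memb t).integrable_map_iff]; rfl

theorem imm_setIntegral {G : Type} [NormedAddCommGroup G] [NormedSpace ℝ G] (g : E → G)
    (s : Set E) : ∫ x in (Subtype.val ⁻¹' s : Set (F.sl t)), g x ∂(h.imm t).mu = ∫ x in s, g x ∂F.mu t := by
  rw [← h.imm_mu, (h.imm_memb t).setIntegral_map]

theorem imm_setLIntegral (g : E → ENNReal) (s : Set E) :
    ∫⁻ x in (Subtype.val ⁻¹' s : Set (F.sl t)), g x ∂(h.imm t).mu = ∫⁻ x in s, g x ∂F.mu t := by
  rw [← h.imm_mu, (h.imm_memb t).restrict_map, (h.imm_memb t).lintegral_map]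

theorem integral_rs {G : Type} [NormedAddCommGroup G] [NormedSpace ℝ G] (f : ST → G) :
    ∫ x, F.rs t f x ∂(h.imm t).mu = ∫ x, f (x, t) ∂F.mu t := h.imm_integral t fun x => f (x, t)

/-! ### static surfaces: smooth functions on the slice are smooth on the track -/

theorem sm_lift (hs : F.Static) {u : F.sl t → ℝ} (hu : (h.imm t).Sm u) : F.Sm (F.lift t u) := by
  intro p hp
  have m : ∀ q ∈ F.M, q.1 ∈ F.sl t := fun q hq => (hs.mem _ t).2 ((hs.mem q.1 q.2).1 hq)
  obtain ⟨X, U, W, L, h1, h2⟩ := exists_ch h (p := (p.1, t)) (m p hp)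
  have hz : (L p.1, t) ∈ U := h2.inU (p.1, t) (m p hp) h1
  have h3 : ContDiffAt ℝ ∞ (u ∘ (slChart h2 ⟨p.1, m p hp⟩).symm) (L p.1) :=
    (hu.chart (slChart_isChart h2 _)).contDiffAt ((h2.oUt t).mem_nhds hz)
  have h4 : ContDiffAt ℝ ∞ (fun q : ST => (u ∘ (slChart h2 ⟨p.1, m p hp⟩).symm) (L q.1)) p :=
    ContDiffAt.comp p (f := fun q : ST => L q.1) h3 (L.contDiff.comp contDiff_fst).contDiffAt
  refine h4.contDiffWithinAt.congr_of_eventuallyEq_of_mem ?_ hp
  filter_upwards [nhdsWithin_le_nhds (((h2.oWt t).preimage continuous_fst).mem_nhds h1),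
    self_mem_nhdsWithin] with q hq hM
  rw [lift_apply u (m q hM), comp_apply]
  exact congrArg u ((slChart h2 ⟨p.1, m p hp⟩).left_inv (x := ⟨q.1, m q hM⟩) hq).symm

end Reg

end Mv

end Crest.Agent.N250

end
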