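import Crest.Agent.N250.Defs

/-!
# Row 250, realisation, part 1 (helper86): flattening chart, retraction, tangent vectors, `td`
-/

set_option autoImplicit false
open MeasureTheory Set Filter Topology Function
open scoped ContDiff InnerProductSpace
open Crest.GeometryTopology.MCF

noncomputable section

namespace Crest.Agent.N250

/-- inverse function theorem -/
theorem exists_localDiffeo {X : Type} [NormedAddCommGroup X] [NormedSpace ℝ X]
    [FiniteDimensional ℝ X] {g : X → X} {U : Set X} (hU : IsOpen U)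
    (hg : ContDiffOn ℝ ∞ g U) {z : X} (hz : z ∈ U) (hi : Injective (fderiv ℝ g z)) :
    ∃ G : OpenPartialHomeomorph X X, z ∈ G.source ∧ G.source ⊆ U ∧
      (∀ w, G w = g w) ∧ ContDiffOn ℝ ∞ G.symm G.target := by
  have := FiniteDimensional.complete ℝ X
  have hn : (∞ : WithTop ℕ∞) ≠ 0 := by simp
  have hc : ContinuousOn (fun w => (fderiv ℝ g w).det) U :=
    ContinuousLinearMap.continuous_det.comp_continuousOn
      (hg.continuousOn_fderiv_of_isOpen hU (by simp))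
  have hV : IsOpen (U ∩ (fun w => (fderiv ℝ g w).det) ⁻¹' {0}ᶜ) :=
    hc.isOpen_inter_preimage hU isOpen_compl_singleton
  have hd : ∀ w ∈ U, ∀ h : (fderiv ℝ g w).det ≠ 0, HasFDerivAt g
      ((fderiv ℝ g w).toContinuousLinearEquivOfDetNeZero h : X →L[ℝ] X) w :=
    fun w hw h => by
      rw [ContinuousLinearMap.coe_toContinuousLinearEquivOfDetNeZero]
      exact ((hg.contDiffAt (hU.mem_nhds hw)).differentiableAt hn).hasFDerivAt
  have hz' := hg.contDiffAt (hU.mem_nhds hz)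
  have h0 : (fderiv ℝ g z).det ≠ 0 :=
    fun h0 => LinearMap.det_eq_zero_iff_ker_ne_bot.1 h0 (LinearMap.ker_eq_bot.2 hi)
  refine ⟨(hz'.toOpenPartialHomeomorph g (hd z hz h0) hn).restrOpen _ hV,
    ⟨hz'.mem_toOpenPartialHomeomorph_source (hd z hz h0) hn, hz, h0⟩, fun w hw => hw.2.1,
    fun w => rfl, fun w hw => ?_⟩
  have h1 := OpenPartialHomeomorph.map_target _ hw
  exact (OpenPartialHomeomorph.contDiffAt_symm _ hw (hd _ h1.2.1 h1.2.2)
    (hg.contDiffAt (hU.mem_nhds h1.2.1))).contDiffWithinAt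

theorem eq_sum_ee (v : E) : v = ∑ a, v a • ee a := by
  ext b; simp [ee, Pi.single_apply]

theorem inner_ee (v : E) (a : Fin 3) : ⟪v, ee a⟫_ℝ = v a := by
  simp [ee, EuclideanSpace.inner_single_right]

theorem inner_eq_sum (v w : E) : ⟪v, w⟫_ℝ = ∑ a, v a * w a := by
  simp [PiLp.inner_apply, mul_comm]

section Amb

variable {φ : ST → ℝ} {q : ST}

theorem inner_gradX (h : DifferentiableAt ℝ φ q) (v : E) :
    ⟪gradX φ q.1 q.2, v⟫_ℝ = fderiv ℝ φ q (v, 0) := by
  have h1 : HasFDerivAt (fun y : E => φ (y, q.2))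
      ((fderiv ℝ φ q).comp (ContinuousLinearMap.inl ℝ E ℝ)) q.1 :=
    HasFDerivAt.comp q.1 (g := φ) (f := fun y : E => (y, q.2)) h.hasFDerivAt
      (hasFDerivAt_prodMk_left q.1 q.2)
  rw [gradX, inner_gradient_left, h1.fderiv]; rfl

theorem dT_eq (h : DifferentiableAt ℝ φ q) : dT φ q = fderiv ℝ φ q (0, 1) := by
  have h1 : HasDerivAt (fun s : ℝ => ((q.1, s) : ST)) (0, 1) q.2 :=
    (hasDerivAt_const q.2 q.1).prodMk (hasDerivAt_id q.2)
  exact (HasFDerivAt.comp_hasDerivAt q.2 (l := φ) h.hasFDerivAt h1).deriv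

theorem gradX_eq (h : DifferentiableAt ℝ φ q) :
    gradX φ q.1 q.2 = ∑ a, fderiv ℝ φ q (ee a, 0) • ee a := by
  conv_lhs => rw [eq_sum_ee (gradX φ q.1 q.2)]
  exact Finset.sum_congr rfl fun a _ => by rw [← inner_ee, inner_gradX h]

theorem fderiv_split (h : DifferentiableAt ℝ φ q) (w : ST) :
    fderiv ℝ φ q w = ⟪gradX φ q.1 q.2, w.1⟫_ℝ + dT φ q * w.2 := by
  have : w = (w.1, 0) + w.2 • ((0 : E), (1 : ℝ)) := by ext <;> simp
  rw [inner_gradX h, dT_eq h]
  conv_lhs => rw [this, map_add, map_smul, smul_eq_mul, mul_comm]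

theorem contDiffOn_gradX {W : Set ST} (hW : IsOpen W) (h : ContDiffOn ℝ ∞ φ W) :
    ContDiffOn ℝ ∞ (fun q : ST => gradX φ q.1 q.2) W := by
  have h1 : ContDiffOn ℝ ∞ (fderiv ℝ φ) W := h.fderiv_of_isOpen hW (by simp)
  refine ContDiffOn.congr (f := fun q => ∑ a, fderiv ℝ φ q (ee a, 0) • ee a)
    (ContDiffOn.sum fun a _ => (h1.clm_apply contDiffOn_const).smul contDiffOn_const) fun q hq => ?_
  exact gradX_eq ((h.contDiffAt (hW.mem_nhds hq)).differentiableAt (by simp))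

theorem contDiffOn_dT {W : Set ST} (hW : IsOpen W) (h : ContDiffOn ℝ ∞ φ W) :
    ContDiffOn ℝ ∞ (dT φ) W := by
  have h1 : ContDiffOn ℝ ∞ (fderiv ℝ φ) W := h.fderiv_of_isOpen hW (by simp)
  exact (h1.clm_apply contDiffOn_const).congr fun q hq =>
    dT_eq ((h.contDiffAt (hW.mem_nhds hq)).differentiableAt (by simp))

end Amb

/-- the flattening map -/
def flat (φ : ST → ℝ) (ν : E) (q : ST) : ST := (q.1 + (φ q - ⟪ν, q.1⟫_ℝ) • ν, q.2)

/-- projection along `ν` -/
def killL (ν : E) : ST →L[ℝ] ST :=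
  (ContinuousLinearMap.fst ℝ E ℝ - ((innerSL ℝ ν).comp (ContinuousLinearMap.fst ℝ E ℝ)).smulRight ν).prod
    (ContinuousLinearMap.snd ℝ E ℝ)

theorem killL_apply (ν : E) (y : ST) : killL ν y = (y.1 - ⟪ν, y.1⟫_ℝ • ν, y.2) := rfl

theorem inner_flat (φ : ST → ℝ) {ν : E} (hν : ⟪ν, ν⟫_ℝ = 1) (q : ST) :
    ⟪ν, (flat φ ν q).1⟫_ℝ = φ q := by
  simp only [flat, inner_add_right, inner_smul_right, hν]; ring

theorem hasFDerivAt_flat {φ : ST → ℝ} {q : ST} (ν : E) (h : DifferentiableAt ℝ φ q) :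
    HasFDerivAt (flat φ ν) (killL ν + ((fderiv ℝ φ q).smulRight ν).prod 0) q := by
  have h1 : HasFDerivAt (fun q : ST => killL ν q + ((φ q • ν, 0) : ST))
      (killL ν + ((fderiv ℝ φ q).smulRight ν).prod 0) q :=
    (killL ν).hasFDerivAt.add ((h.hasFDerivAt.smul_const ν).prodMk (hasFDerivAt_const 0 q))
  convert h1 using 1
  funext q
  rw [killL_apply, flat, sub_smul]
  ext1
  · simp only [Prod.fst_add]; abel
  · simp

namespace Mv

variable (F : Mv)

/-- tangent vectors of the track -/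
def Tg (p w : ST) : Prop := ⟪F.n p, w.1⟫_ℝ = F.V p * w.2

/-- a time preserving smooth retraction onto the track near `p` -/
structure Retr (p : ST) (U : Set ST) (π : ST → ST) : Prop where
  isOpen : IsOpen U
  mem : p ∈ U
  sm : ContDiffOn ℝ ∞ π U
  maps : MapsTo π U F.M
  fix : ∀ q ∈ U, q ∈ F.M → π q = q
  time : ∀ q ∈ U, (π q).2 = q.2
  der : ∀ w, F.Tg p w → fderiv ℝ π p w = w

variable {F} {W : Set ST} {φ : ST → ℝ} {p q w : ST}

namespace Loc

variable (h : F.Loc W φ)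
include h

theorem contDiffAt (hq : q ∈ W) : ContDiffAt ℝ ∞ φ q := h.sm.contDiffAt (h.isOpen.mem_nhds hq)

theorem diffAt (hq : q ∈ W) : DifferentiableAt ℝ φ q := (h.contDiffAt hq).differentiableAt (by simp)

theorem norm_pos (hq : q ∈ W) : 0 < ‖gradX φ q.1 q.2‖ := norm_pos_iff.2 (h.ne q hq)

theorem grad_eq (hq : q ∈ W) (hM : q ∈ F.M) : gradX φ q.1 q.2 = ‖gradX φ q.1 q.2‖ • F.n q := by
  rw [h.n_eq q hq hM, smul_smul, mul_inv_cancel₀ (h.norm_pos hq).ne', one_smul]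

theorem norm_n (hq : q ∈ W) (hM : q ∈ F.M) : ‖F.n q‖ = 1 := by
  rw [h.n_eq q hq hM, norm_smul, norm_inv, norm_norm, inv_mul_cancel₀ (h.norm_pos hq).ne']

theorem fderiv_eq (hq : q ∈ W) (hM : q ∈ F.M) (w : ST) :
    fderiv ℝ φ q w = ‖gradX φ q.1 q.2‖ * (⟪F.n q, w.1⟫_ℝ - F.V q * w.2) := by
  have := (h.norm_pos hq).ne'
  rw [fderiv_split (h.diffAt hq), h.V_eq q hq hM]
  conv_lhs => rw [h.grad_eq hq hM, real_inner_smul_left]
  field_simp
  ring

theorem tg_iff (hq : q ∈ W) (hM : q ∈ F.M) : F.Tg q w ↔ fderiv ℝ φ q w = 0 := by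
  rw [h.fderiv_eq hq hM, mul_eq_zero, sub_eq_zero, or_iff_right (h.norm_pos hq).ne']; rfl

theorem mono {W' : Set ST} (hW' : IsOpen W') (hs : W' ⊆ W) : F.Loc W' φ :=
  ⟨hW', h.sm.mono hs, fun q hq => h.ne q (hs hq), fun q hq => h.mem q (hs hq),
    fun q hq => h.n_eq q (hs hq), fun q hq => h.V_eq q (hs hq)⟩

/-- smooth ambient extension of the normal -/
theorem sm_n : ContDiffOn ℝ ∞ (fun q : ST => ‖gradX φ q.1 q.2‖⁻¹ • gradX φ q.1 q.2) W := by
  have h1 := contDiffOn_gradX h.isOpen h.sm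
  exact ((h1.norm ℝ h.ne).inv fun q hq => (h.norm_pos hq).ne').smul h1

/-- smooth ambient extension of the speed -/
theorem sm_V : ContDiffOn ℝ ∞ (fun q : ST => -dT φ q / ‖gradX φ q.1 q.2‖) W :=
  (contDiffOn_dT h.isOpen h.sm).neg.div ((contDiffOn_gradX h.isOpen h.sm).norm ℝ h.ne)
    fun _ hq => (h.norm_pos hq).ne'

theorem sm_flat (ν : E) : ContDiffOn ℝ ∞ (flat φ ν) W :=
  (contDiffOn_fst.add ((h.sm.sub (contDiffOn_const.inner ℝ contDiffOn_fst)).smul
    contDiffOn_const)).prodMk contDiffOn_snd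

theorem inj_flat (hp : p ∈ W) (hM : p ∈ F.M) : Injective (fderiv ℝ (flat φ (F.n p)) p) := by
  have hν : ⟪F.n p, F.n p⟫_ℝ = 1 := by rw [real_inner_self_eq_norm_sq, h.norm_n hp hM, one_pow]
  rw [(hasFDerivAt_flat _ (h.diffAt hp)).fderiv, injective_iff_map_eq_zero]
  intro w hw
  have h1 : w.1 - ⟪F.n p, w.1⟫_ℝ • F.n p + fderiv ℝ φ p w • F.n p = 0 := congrArg Prod.fst hw
  have h2 : w.2 + 0 = 0 := congrArg Prod.snd hw
  rw [add_zero] at h2
  have h3 := congrArg (fun v => ⟪F.n p, v⟫_ℝ) h1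
  simp only [inner_add_right, inner_sub_right, inner_smul_right, hν, inner_zero_right, mul_one,
    sub_self, zero_add] at h3
  have h4 := (h.tg_iff hp hM).2 h3
  rw [Tg, h2, mul_zero] at h4
  rw [h3, h4, zero_smul, sub_zero, add_zero] at h1
  exact Prod.ext h1 h2

/-- the flattening chart -/
theorem exists_flat (hp : p ∈ W) (hM : p ∈ F.M) : ∃ G : OpenPartialHomeomorph ST ST,
    p ∈ G.source ∧ G.source ⊆ W ∧ (∀ q, G q = flat φ (F.n p) q) ∧
      ContDiffOn ℝ ∞ G.symm G.target :=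
  exists_localDiffeo h.isOpen (h.sm_flat _) hp (h.inj_flat hp hM)

theorem exists_retr (hp : p ∈ W) (hM : p ∈ F.M) : ∃ U π, U ⊆ W ∧ F.Retr p U π := by
  obtain ⟨G, h1, h2, h3, h4⟩ := h.exists_flat hp hM
  have hν : ⟪F.n p, F.n p⟫_ℝ = 1 := by rw [real_inner_self_eq_norm_sq, h.norm_n hp hM, one_pow]
  set ν := F.n p with hνd
  have hfix : ∀ q ∈ W, q ∈ F.M → killL ν (flat φ ν q) = flat φ ν q := fun q hq hqM => by
    rw [killL_apply, inner_flat φ hν, (h.mem q hq).1 hqM, zero_smul, sub_zero]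
  have hs : ContDiffOn ℝ ∞ (fun q => killL ν (flat φ ν q)) G.source :=
    (killL ν).contDiff.comp_contDiffOn ((h.sm_flat ν).mono h2)
  set U := G.source ∩ (fun q => killL ν (flat φ ν q)) ⁻¹' G.target with hU
  have hUo : IsOpen U := hs.continuousOn.isOpen_inter_preimage G.open_source G.open_target
  have hpU : p ∈ U := ⟨h1, by rw [mem_preimage, hfix p hp hM, ← h3]; exact G.map_source h1⟩
  have key : ∀ q ∈ U, flat φ ν (G.symm (killL ν (flat φ ν q))) = killL ν (flat φ ν q) :=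
    fun q hq => by rw [← h3]; exact G.right_inv hq.2
  have hsm : ContDiffOn ℝ ∞ (fun q => G.symm (killL ν (flat φ ν q))) U :=
    h4.comp (hs.mono inter_subset_left) fun q hq => hq.2
  have hfx : ∀ q ∈ U, q ∈ F.M → G.symm (killL ν (flat φ ν q)) = q := fun q hq hqM => by
    rw [hfix q (h2 hq.1) hqM, ← h3, G.left_inv hq.1]
  refine ⟨U, fun q => G.symm (killL ν (flat φ ν q)), fun q hq => h2 hq.1, hUo, hpU, hsm,
    fun q hq => ?_, hfx, fun q hq => (congrArg Prod.snd (key q hq) :), fun w hw => ?_⟩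
  · rw [h.mem _ (h2 (G.map_target hq.2)), ← inner_flat φ hν, key q hq, killL_apply]
    simp only [inner_sub_right, inner_smul_right, hν]; ring
  · have d1 := ((hsm.contDiffAt (hUo.mem_nhds hpU)).differentiableAt (by simp)).hasFDerivAt
    have d2 := hasFDerivAt_flat ν (h.diffAt hp)
    have d2' := d2
    rw [← hfx p hpU hM] at d2'
    have d3 := d2'.comp p d1
    have d4 := (killL ν).hasFDerivAt.comp p d2
    have d5 := (d3.congr_of_eventuallyEq (f₁ := killL ν ∘ flat φ ν)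
      (eventually_of_mem (hUo.mem_nhds hpU) fun q hq => (key q hq).symm)).unique d4
    apply h.inj_flat hp hM
    have d6 := congrArg (fun L : ST →L[ℝ] ST => L w) d5
    rw [hfx p hpU hM] at d6
    rw [← hνd, d2.fderiv]
    refine Eq.trans d6 ?_
    have e0 := (h.tg_iff hp hM).1 hw
    simp only [ContinuousLinearMap.comp_apply, add_apply,
      ContinuousLinearMap.prod_apply, ContinuousLinearMap.smulRight_apply, e0, zero_smul,
      zero_apply, Prod.mk_zero_zero, add_zero, killL_apply, inner_sub_right,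
      inner_smul_right, hν, mul_one, sub_self, sub_zero]

end Loc

namespace Reg

variable (h : F.Reg)
include h

theorem exists_retr (hp : p ∈ F.M) : ∃ U π, F.Retr p U π := by
  obtain ⟨W, φ, h1, h2⟩ := h p hp
  obtain ⟨U, π, -, h3⟩ := h2.exists_retr h1 hp
  exact ⟨U, π, h3⟩

theorem norm_n (hp : p ∈ F.M) : ‖F.n p‖ = 1 := by
  obtain ⟨W, φ, h1, h2⟩ := h p hp
  exact h2.norm_n h1 hp

theorem inner_n (hp : p ∈ F.M) : ⟪F.n p, F.n p⟫_ℝ = 1 := by
  rw [real_inner_self_eq_norm_sq, h.norm_n hp, one_pow]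

theorem tg_PL (hp : p ∈ F.M) (v : E) : F.Tg p (F.PL p v, 0) := by
  simp only [Tg, PL, inner_sub_right, inner_smul_right, h.inner_n hp]; ring

theorem tg_vel (hp : p ∈ F.M) : F.Tg p (F.V p • F.n p, 1) := by
  simp only [Tg, inner_smul_right, h.inner_n hp]

theorem sm_n : F.Sm F.n := fun p hp => by
  obtain ⟨W, φ, h1, h2⟩ := h p hp
  exact (h2.sm_n.contDiffAt (h2.isOpen.mem_nhds h1)).contDiffWithinAt.congr_of_eventuallyEq_of_mem
    (by filter_upwards [nhdsWithin_le_nhds (h2.isOpen.mem_nhds h1), self_mem_nhdsWithin]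
      with q hq hqM using h2.n_eq q hq hqM) hp

theorem sm_V : F.Sm F.V := fun p hp => by
  obtain ⟨W, φ, h1, h2⟩ := h p hp
  exact (h2.sm_V.contDiffAt (h2.isOpen.mem_nhds h1)).contDiffWithinAt.congr_of_eventuallyEq_of_mem
    (by filter_upwards [nhdsWithin_le_nhds (h2.isOpen.mem_nhds h1), self_mem_nhdsWithin]
      with q hq hqM using h2.V_eq q hq hqM) hp

variable {G : Type} [NormedAddCommGroup G] [NormedSpace ℝ G] {f g : ST → G}

/-- derivatives within the track are unique on tangent vectors -/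
theorem unique_tg (hp : p ∈ F.M) {L L' : ST →L[ℝ] G} (h1 : HasFDerivWithinAt f L F.M p)
    (h2 : HasFDerivWithinAt f L' F.M p) (hw : F.Tg p w) : L w = L' w := by
  obtain ⟨U, π, hr⟩ := h.exists_retr hp
  have d := ((hr.sm.contDiffAt (hr.isOpen.mem_nhds hr.mem)).differentiableAt (by simp)).hasFDerivAt
  have e : ∀ᶠ q in 𝓝 p, π q ∈ F.M := eventually_of_mem (hr.isOpen.mem_nhds hr.mem) hr.maps
  have d1 := h1.comp_hasFDerivAt_of_eq p d e (hr.fix p hr.mem hp).symm
  have d2 := h2.comp_hasFDerivAt_of_eq p d e (hr.fix p hr.mem hp).symm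
  have := congrArg (fun L : ST →L[ℝ] G => L w) (d1.unique d2)
  simpa only [ContinuousLinearMap.comp_apply, hr.der w hw] using this

theorem td_eq (hp : p ∈ F.M) {L : ST →L[ℝ] G} (h1 : HasFDerivWithinAt f L F.M p)
    (hw : F.Tg p w) : F.td f p w = L w :=
  h.unique_tg hp h1.differentiableWithinAt.hasFDerivWithinAt h1 hw

/-- `td` of an ambient function -/
theorem td_amb (hp : p ∈ F.M) (h1 : DifferentiableAt ℝ f p) (hw : F.Tg p w) :
    F.td f p w = fderiv ℝ f p w :=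
  h.td_eq hp h1.hasFDerivAt.hasFDerivWithinAt hw

/-- `td` through any ambient extension -/
theorem td_ext (hp : p ∈ F.M) (h1 : DifferentiableAt ℝ g p) (e : f =ᶠ[𝓝[F.M] p] g)
    (hw : F.Tg p w) : F.td f p w = fderiv ℝ g p w := by
  rw [td, e.fderivWithin_eq_of_mem hp]; exact h.td_amb hp h1 hw

/-- local ambient extension of a smooth function -/
theorem exists_ext (hf : F.Sm f) (hp : p ∈ F.M) : ∃ (U : Set ST) (g : ST → G), IsOpen U ∧ p ∈ U ∧
    ContDiffOn ℝ ∞ g U ∧ ∀ q ∈ U, q ∈ F.M → f q = g q := by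
  obtain ⟨U, π, hr⟩ := h.exists_retr hp
  exact ⟨U, f ∘ π, hr.isOpen, hr.mem, ContDiffOn.comp hf hr.sm hr.maps,
    fun q hq hM => by rw [comp_apply, hr.fix q hq hM]⟩

/-- the derivative of a smooth function along a smooth tangent field is smooth -/
theorem sm_td (hf : F.Sm f) {X : ST → ST} (hX : F.Sm X) (hT : ∀ q ∈ F.M, F.Tg q (X q)) :
    F.Sm fun q => F.td f q (X q) := fun p hp => by
  obtain ⟨U, g, h1, h2, h3, h4⟩ := h.exists_ext hf hp
  have h5 : ContDiffWithinAt ℝ ∞ (fun q => fderiv ℝ g q (X q)) F.M p :=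
    ((h3.contDiffAt (h1.mem_nhds h2)).fderiv_right (m := ∞) (by simp)).contDiffWithinAt.clm_apply
      (hX p hp)
  refine h5.congr_of_eventuallyEq_of_mem ?_ hp
  filter_upwards [nhdsWithin_le_nhds (h1.mem_nhds h2), self_mem_nhdsWithin] with q hq hqM
  refine h.td_ext hqM ((h3.contDiffAt (h1.mem_nhds hq)).differentiableAt (by simp)) ?_ (hT q hqM)
  filter_upwards [nhdsWithin_le_nhds (h1.mem_nhds hq), self_mem_nhdsWithin] with r hr hrM
    using h4 r hr hrM

theorem sm_PL (v : E) : F.Sm fun q => F.PL q v :=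
  contDiffOn_const.sub ((ContDiffOn.inner ℝ h.sm_n contDiffOn_const).smul h.sm_n)

theorem sm_nu (a : Fin 3) : F.Sm (F.nu a) :=
  (EuclideanSpace.proj (𝕜 := ℝ) a).contDiff.comp_contDiffOn h.sm_n

end Reg

end Mv

end Crest.Agent.N250

end
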