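import Crest.Agent.N250.Re.Ring

/-!
# Row 250, realisation, part 4 (helper86): pointwise identities on the track
-/

set_option autoImplicit false
open MeasureTheory Set Filter Topology Function
open scoped ContDiff InnerProductSpace
open Crest.GeometryTopology.MCF

noncomputable section

namespace Crest.Agent.N250

theorem Mov.IsHyp.nab2_B {R : Type} [CommRing R] [Algebra ℝ R] {ι : Type} [Fintype ι]
    [DecidableEq ι] {S : Mov R ι} (H : S.IsHyp) (a b c : ι) : S.nab2 S.B a b c = S.dB a b c := by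
  have e : ∀ e f, S.P b e * S.P c f * S.D a (S.B e f) = S.P b e * (S.P c f * S.dB a e f)
      - (S.P b e * S.n e) * (S.P c f * S.B2 a f) - (S.P b e * S.B2 a e) * (S.P c f * S.n f) :=
    fun e f => by rw [Mov.dB]; ring
  simp only [N222.Pre.nab2, e, Finset.sum_sub_distrib, ← Finset.mul_sum, ← Finset.sum_mul, H.P_n,
    H.tan_of (H.n_dB3 a _) c, H.tan_of (H.n_dB2 a c) b]
  ring

namespace Mv

variable {F : Mv} {p : ST} {f g : ST → ℝ}

theorem gam_apply (f g : ST → ℝ) (p : ST) : F.gam f g p = ∑ a, F.D a f p * F.D a g p :=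
  Finset.sum_apply _ _ _

theorem lap_apply (f : ST → ℝ) (p : ST) : F.lap f p = ∑ a, F.D a (F.D a f) p :=
  Finset.sum_apply _ _ _

theorem hess_apply (f : ST → ℝ) (a b : Fin 3) (p : ST) :
    F.pre.hess f a b p = ∑ c, F.P b c p * F.D a (F.D c f) p := Finset.sum_apply _ _ _

theorem box_apply (f : ST → ℝ) (p : ST) : F.box f p = F.Dt f p - F.lap f p := rfl

theorem H_apply (p : ST) : F.H p = ∑ a, F.A a a p := Finset.sum_apply _ _ _

theorem A2_apply (p : ST) : F.A2 p = ∑ a, ∑ b, F.A a b p * F.A a b p := by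
  simp only [A2, Finset.sum_apply, Pi.mul_apply]

theorem GA_apply (p : ST) :
    F.GA p = ∑ a, ∑ b, ∑ c, F.pre.nab2 F.A a b c p * F.pre.nab2 F.A a b c p := by
  simp only [GA, Finset.sum_apply, Pi.mul_apply]

theorem gam_self_nonneg (f : ST → ℝ) (p : ST) : 0 ≤ F.gam f f p := by
  rw [gam_apply]; exact Finset.sum_nonneg fun _ _ => mul_self_nonneg _

theorem gam_comm (f g : ST → ℝ) (p : ST) : F.gam f g p = F.gam g f p := by
  simp only [gam_apply, mul_comm]

theorem gam_sq_le (f g : ST → ℝ) (p : ST) : F.gam f g p ^ 2 ≤ F.gam f f p * F.gam g g p := by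
  simpa only [gam_apply, sq] using
    Finset.sum_mul_sq_le_sq_mul_sq Finset.univ (fun a => F.D a f p) fun a => F.D a g p

theorem A2_nonneg (p : ST) : 0 ≤ F.A2 p := by
  rw [A2_apply]
  exact Finset.sum_nonneg fun _ _ => Finset.sum_nonneg fun _ _ => mul_self_nonneg _

theorem GA_nonneg (p : ST) : 0 ≤ F.GA p := by
  rw [GA_apply]
  exact Finset.sum_nonneg fun _ _ => Finset.sum_nonneg fun _ _ =>
    Finset.sum_nonneg fun _ _ => mul_self_nonneg _

theorem eventually_D_congr (e : f =ᶠ[𝓝[F.M] p] g) (a : Fin 3) :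
    F.D a f =ᶠ[𝓝[F.M] p] F.D a g := by
  filter_upwards [eventually_eventually_nhdsWithin.2 e, self_mem_nhdsWithin] with q hq hM
    using D_congr hM hq a

theorem lap_congr (hp : p ∈ F.M) (e : f =ᶠ[𝓝[F.M] p] g) : F.lap f p = F.lap g p := by
  simp only [lap_apply, D_congr hp (eventually_D_congr e _)]

theorem hess_congr (hp : p ∈ F.M) (e : f =ᶠ[𝓝[F.M] p] g) (a b : Fin 3) :
    F.pre.hess f a b p = F.pre.hess g a b p := by
  simp only [hess_apply, D_congr hp (eventually_D_congr e _)]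

theorem box_congr (hp : p ∈ F.M) (e : f =ᶠ[𝓝[F.M] p] g) : F.box f p = F.box g p := by
  rw [box_apply, box_apply, Dt_congr hp e, lap_congr hp e]

theorem ev_of_eqOn (e : ∀ q ∈ F.M, f q = g q) : f =ᶠ[𝓝[F.M] p] g :=
  eventually_of_mem self_mem_nhdsWithin e

theorem DL_congr (e : f =ᶠ[𝓝[F.M] p] g) (l : List (Fin 3)) : F.DL l f =ᶠ[𝓝[F.M] p] F.DL l g := by
  induction l with
  | nil => exact e
  | cons a l ih => exact eventually_D_congr ih a

namespace Reg

variable (h : F.Reg) (hp : p ∈ F.M)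
include h

theorem mov_B2 (a b : Fin 3) : h.mov.B2 a b = mk' (∑ c, F.A a c * F.A c b)
    (Sm.sum fun c _ => (h.sm_A a c).mul (h.sm_A c b)) := by
  simp only [Mov.B2, h.mov_B, mk_mul, mk_sum]

theorem mov_dB (a b c : Fin 3) :
    h.mov.dB a b c = mk' (F.pre.nab2 F.A a b c) (h.sm_nab2A a b c) := by
  rw [← h.isHyp.nab2_B]
  simp only [N222.Pre.nab2, h.mov_P, h.mov_B, h.mov_D, mk_mul, mk_sum]

theorem mov_dB2 : h.mov.dB2 = mk' F.GA h.sm_GA := by
  simp only [Mov.dB2, h.mov_dB, mk_mul, mk_sum]; rfl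

include hp

/-! ### first order rules -/

theorem D_add (hf : F.Sm f) (hg : F.Sm g) (a : Fin 3) :
    F.D a (f + g) p = F.D a f p + F.D a g p :=
  h.td_add hp (hf.diffW hp) (hg.diffW hp) (h.tg_PL hp _)

theorem D_mul (hf : F.Sm f) (hg : F.Sm g) (a : Fin 3) :
    F.D a (f * g) p = f p * F.D a g p + F.D a f p * g p :=
  h.td_mul hp (hf.diffW hp) (hg.diffW hp) (h.tg_PL hp _)

theorem D_const (c : ℝ) (a : Fin 3) : F.D a (fun _ => c) p = 0 := h.td_const hp c (h.tg_PL hp _)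

theorem D_t (a : Fin 3) : F.D a (fun q : ST => q.2) p = 0 := h.td_t hp (h.tg_PL hp _)

theorem D_comp {ψ : ℝ → ℝ} {d : ℝ} (hf : F.Sm f) (hψ : HasDerivAt ψ d (f p)) (a : Fin 3) :
    F.D a (fun q => ψ (f q)) p = d * F.D a f p := h.td_comp1 hp (hf.diffW hp) hψ (h.tg_PL hp _)

theorem D_const_mul (c : ℝ) (hf : F.Sm f) (a : Fin 3) :
    F.D a (fun q => c * f q) p = c * F.D a f p :=
  h.D_comp hp (ψ := fun s => c * s) hf (by simpa using (hasDerivAt_id (f p)).const_mul c) a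

theorem D_neg (hf : F.Sm f) (a : Fin 3) : F.D a (-f) p = -F.D a f p := by
  exact (h.D_comp hp (ψ := fun s => -s) hf (hasDerivAt_neg (f p)) a).trans (neg_one_mul _)

theorem D_sub (hf : F.Sm f) (hg : F.Sm g) (a : Fin 3) :
    F.D a (f - g) p = F.D a f p - F.D a g p := by
  rw [sub_eq_add_neg, h.D_add hp hf hg.neg, h.D_neg hp hg, sub_eq_add_neg]

theorem D_sum {κ : Type} (s : Finset κ) {f : κ → ST → ℝ} (hf : ∀ i, F.Sm (f i)) (a : Fin 3) :
    F.D a (∑ i ∈ s, f i) p = ∑ i ∈ s, F.D a (f i) p := by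
  simpa only [mk_sum, h.mov_D, ev_mk, Finset.sum_apply] using
    congrArg (ev hp) (h.isHyp.toIsDS.D_sum a s fun i => mk' (f i) (hf i))

theorem D_amb (hg : DifferentiableAt ℝ g p) (a : Fin 3) :
    F.D a g p = fderiv ℝ g p (F.PL p (ee a), 0) := h.td_amb hp hg (h.tg_PL hp _)

theorem Dt_add (hf : F.Sm f) (hg : F.Sm g) : F.Dt (f + g) p = F.Dt f p + F.Dt g p :=
  h.td_add hp (hf.diffW hp) (hg.diffW hp) (h.tg_vel hp)

theorem Dt_mul (hf : F.Sm f) (hg : F.Sm g) : F.Dt (f * g) p = f p * F.Dt g p + F.Dt f p * g p :=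
  h.td_mul hp (hf.diffW hp) (hg.diffW hp) (h.tg_vel hp)

theorem Dt_const (c : ℝ) : F.Dt (fun _ => c) p = 0 := h.td_const hp c (h.tg_vel hp)

theorem Dt_t : F.Dt (fun q : ST => q.2) p = 1 := h.td_t hp (h.tg_vel hp)

theorem Dt_comp {ψ : ℝ → ℝ} {d : ℝ} (hf : F.Sm f) (hψ : HasDerivAt ψ d (f p)) :
    F.Dt (fun q => ψ (f q)) p = d * F.Dt f p := h.td_comp1 hp (hf.diffW hp) hψ (h.tg_vel hp)

theorem Dt_const_mul (c : ℝ) (hf : F.Sm f) : F.Dt (fun q => c * f q) p = c * F.Dt f p :=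
  h.Dt_comp hp (ψ := fun s => c * s) hf (by simpa using (hasDerivAt_id (f p)).const_mul c)

theorem Dt_neg (hf : F.Sm f) : F.Dt (-f) p = -F.Dt f p := by
  exact (h.Dt_comp hp (ψ := fun s => -s) hf (hasDerivAt_neg (f p))).trans (neg_one_mul _)

theorem Dt_sub (hf : F.Sm f) (hg : F.Sm g) : F.Dt (f - g) p = F.Dt f p - F.Dt g p := by
  rw [sub_eq_add_neg, h.Dt_add hp hf hg.neg, h.Dt_neg hp hg, sub_eq_add_neg]

theorem Dt_sum {κ : Type} (s : Finset κ) {f : κ → ST → ℝ} (hf : ∀ i, F.Sm (f i)) :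
    F.Dt (∑ i ∈ s, f i) p = ∑ i ∈ s, F.Dt (f i) p := by
  simpa only [mk_sum, h.mov_T, ev_mk, Finset.sum_apply] using
    congrArg (ev hp) (h.isMov.T_sum s fun i => mk' (f i) (hf i))

theorem Dt_amb (hg : DifferentiableAt ℝ g p) : F.Dt g p = fderiv ℝ g p (F.V p • F.n p, 1) :=
  h.td_amb hp hg (h.tg_vel hp)

theorem Dt_amb' (hg : DifferentiableAt ℝ g p) :
    F.Dt g p = dT g p + F.V p * fderiv ℝ g p (F.n p, 0) := by
  have : ((F.V p • F.n p, 1) : ST) = ((0 : E), (1 : ℝ)) + F.V p • (F.n p, 0) := by ext1 <;> simp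
  rw [h.Dt_amb hp hg, this, map_add, map_smul, dT_eq hg, smul_eq_mul]

omit h hp in
/-- every tangent vector: spatial part plus normal motion -/
theorem td_split (f : ST → ℝ) {w : ST} (hw : F.Tg p w) :
    F.td f p w = ∑ a, w.1 a * F.D a f p + w.2 * F.Dt f p := by
  have : w = (F.PL p w.1, 0) + w.2 • (F.V p • F.n p, 1) := by
    ext1
    · simp only [PL, Prod.fst_add, Prod.smul_fst, smul_smul]
      rw [show ⟪F.n p, w.1⟫_ℝ = F.V p * w.2 from hw, mul_comm, sub_add_cancel]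
    · simp
  conv_lhs => rw [this, map_add, map_smul, td_PL]
  rfl

/-! ### algebra of the projection and of the second fundamental form -/

theorem P_symm (a b : Fin 3) : F.P a b p = F.P b a p := by
  simpa only [h.mov_P, ev_mk] using congrArg (ev hp) (h.isHyp.symm a b)

theorem PD (hf : F.Sm f) (a : Fin 3) : ∑ b, F.P a b p * F.D b f p = F.D a f p := by
  simpa only [map_sum, map_mul, h.mov_P, h.mov_D, ev_mk] using
    congrArg (ev hp) (h.isHyp.toIsDS.PD a (mk' f hf))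

theorem n_A (b : Fin 3) : ∑ a, F.nu a p * F.A a b p = 0 := h.n_D hp _

theorem A_n (a : Fin 3) : ∑ b, F.nu b p * F.A a b p = 0 := by
  simp only [h.A_symm hp a, h.n_A hp]

theorem hess_symm (hf : F.Sm f) (a b : Fin 3) : F.pre.hess f a b p = F.pre.hess f b a p := by
  simpa only [h.mov_hess, ev_mk] using congrArg (ev hp) (h.isHyp.hess (mk' f hf) a b)

theorem tr_hess (hf : F.Sm f) : ∑ a, F.pre.hess f a a p = F.lap f p := by
  simpa only [map_sum, h.mov_hess, h.mov_lap, ev_mk] using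
    congrArg (ev hp) (h.isHyp.toIsDS.tr_hess (mk' f hf))

theorem DD_eq (hf : F.Sm f) (a b : Fin 3) : F.D a (F.D b f) p =
    F.pre.hess f a b p - F.nu b p * ∑ c, F.A a c p * F.D c f p := by
  simpa only [map_sum, map_mul, map_sub, h.mov_hess, h.mov_D, h.mov_n, h.mov_B, ev_mk] using
    congrArg (ev hp) (h.isHyp.DD (mk' f hf) a b)

theorem gam_x (hf : F.Sm f) (b : Fin 3) : F.gam f (F.pre.x b) p = F.D b f p := by
  simpa only [h.mov_x, h.mov_gam, h.mov_D, ev_mk] using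
    congrArg (ev hp) (h.isHyp.gam_x (mk' f hf) b)

theorem lap_x (a : Fin 3) : F.lap (F.pre.x a) p = -(F.H p * F.nu a p) := by
  simpa only [map_neg, map_mul, h.mov_x, h.mov_lap, h.mov_h, h.mov_n, ev_mk] using
    congrArg (ev hp) (h.isHyp.lap_x a)

theorem lap_nu (a : Fin 3) : F.lap (F.nu a) p = F.D a F.H p - F.A2 p * F.nu a p := by
  simpa only [map_sub, map_mul, h.mov_lap, h.mov_h, h.mov_n, h.mov_D, h.mov_a2, ev_mk] using
    congrArg (ev hp) (h.isHyp.lap_n a)

theorem codazzi (a b c : Fin 3) : F.pre.nab2 F.A a b c p = F.pre.nab2 F.A b a c p := by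
  simpa only [h.mov_dB, ev_mk] using congrArg (ev hp) (h.isHyp.codazzi a b c)

theorem tr_nab2A (a : Fin 3) : ∑ b, F.pre.nab2 F.A a b b p = F.D a F.H p := by
  simpa only [map_sum, h.mov_dB, h.mov_h, h.mov_D, ev_mk] using
    congrArg (ev hp) (h.isHyp.tr_dB a)

theorem D_A2 (a : Fin 3) :
    F.D a F.A2 p = 2 * ∑ b, ∑ c, F.A b c p * F.pre.nab2 F.A a b c p := by
  simpa only [map_sum, map_mul, map_ofNat, h.mov_dB, h.mov_a2, h.mov_D, h.mov_B, ev_mk] using
    congrArg (ev hp) (h.isHyp.D_a2 a)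

/-! ### second order rules -/

theorem lap_add (hf : F.Sm f) (hg : F.Sm g) : F.lap (f + g) p = F.lap f p + F.lap g p := by
  simpa only [mk_add, h.mov_lap, ev_mk, Pi.add_apply] using
    congrArg (ev hp) (h.isMov.lap_add (mk' f hf) (mk' g hg))

theorem lap_mul (hf : F.Sm f) (hg : F.Sm g) :
    F.lap (f * g) p = f p * F.lap g p + 2 * F.gam f g p + F.lap f p * g p := by
  have := congrArg (ev hp) (h.isHyp.toIsDS.lap_mul (mk' f hf) (mk' g hg))
  rw [mk_mul] at this
  simpa only [map_add, map_mul, map_ofNat, h.mov_lap, h.mov_gam, ev_mk] using this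

theorem box_add (hf : F.Sm f) (hg : F.Sm g) : F.box (f + g) p = F.box f p + F.box g p := by
  rw [box_apply, box_apply, box_apply, h.Dt_add hp hf hg, h.lap_add hp hf hg]; ring

theorem box_mul (hf : F.Sm f) (hg : F.Sm g) :
    F.box (f * g) p = f p * F.box g p + F.box f p * g p - 2 * F.gam f g p := by
  rw [box_apply, box_apply, box_apply, h.Dt_mul hp hf hg, h.lap_mul hp hf hg]; ring

/-- chain rule for second derivatives -/
theorem DD_comp {ψ : ℝ → ℝ} (hf : F.Sm f) (hψ : ContDiffAt ℝ 2 ψ (f p)) (a b : Fin 3) :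
    F.D a (F.D b fun q => ψ (f q)) p = deriv ψ (f p) * F.D a (F.D b f) p
      + deriv (deriv ψ) (f p) * (F.D a f p * F.D b f p) := by
  have h1 : ∀ᶠ s in 𝓝 (f p), DifferentiableAt ℝ ψ s :=
    (hψ.eventually (by simp)).mono fun s hs => hs.differentiableAt (by simp)
  have h2 : DifferentiableAt ℝ (deriv ψ) (f p) :=
    (hψ.derivWithin (m := 1) (by norm_num)).differentiableAt (by simp)
  have e : (F.D b fun q => ψ (f q)) =ᶠ[𝓝[F.M] p] (fun q => deriv ψ (f q)) * F.D b f := by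
    filter_upwards [(hf p hp).continuousWithinAt.eventually h1, self_mem_nhdsWithin] with q hq hM
      using h.D_comp hM hf hq.hasDerivAt b
  rw [D_congr hp e, D_apply, h.td_mul (f := fun q => deriv ψ (f q)) hp
    (h2.comp_differentiableWithinAt p (hf.diffW hp))
    ((h.sm_D hf b).diffW hp) (h.tg_PL hp _), ← D_apply, ← D_apply, h.D_comp hp hf h2.hasDerivAt]
  ring

theorem lap_comp {ψ : ℝ → ℝ} (hf : F.Sm f) (hψ : ContDiffAt ℝ 2 ψ (f p)) :
    F.lap (fun q => ψ (f q)) p = deriv ψ (f p) * F.lap f p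
      + deriv (deriv ψ) (f p) * F.gam f f p := by
  simp only [lap_apply, gam_apply, h.DD_comp hp hf hψ, Finset.sum_add_distrib, Finset.mul_sum]

theorem box_comp {ψ : ℝ → ℝ} (hf : F.Sm f) (hψ : ContDiffAt ℝ 2 ψ (f p)) :
    F.box (fun q => ψ (f q)) p = deriv ψ (f p) * F.box f p
      - deriv (deriv ψ) (f p) * F.gam f f p := by
  rw [box_apply, box_apply, h.lap_comp hp hf hψ,
    h.Dt_comp hp hf (hψ.differentiableAt (by simp)).hasDerivAt]; ring

theorem lap_const (c : ℝ) : F.lap (fun _ => c) p = 0 := by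
  simp only [lap_apply, D_congr' hp fun q hq => h.D_const hq c _, h.D_const hp,
    Finset.sum_const_zero]

theorem box_const (c : ℝ) : F.box (fun _ => c) p = 0 := by
  rw [box_apply, h.lap_const hp, h.Dt_const hp, sub_zero]

theorem lap_const_mul (c : ℝ) (hf : F.Sm f) : F.lap (fun q => c * f q) p = c * F.lap f p := by
  simp only [lap_apply, D_congr' hp fun q hq => h.D_const_mul hq c hf _,
    h.D_const_mul hp c (h.sm_D hf _), Finset.mul_sum]

theorem box_const_mul (c : ℝ) (hf : F.Sm f) : F.box (fun q => c * f q) p = c * F.box f p := by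
  rw [box_apply, box_apply, h.lap_const_mul hp c hf, h.Dt_const_mul hp c hf]; ring

theorem lap_sub (hf : F.Sm f) (hg : F.Sm g) : F.lap (f - g) p = F.lap f p - F.lap g p := by
  simp only [lap_apply, D_congr' hp fun q hq => h.D_sub hq hf hg _, ← Finset.sum_sub_distrib]
  exact Finset.sum_congr rfl fun a _ => h.D_sub hp (h.sm_D hf a) (h.sm_D hg a) a

theorem box_sub (hf : F.Sm f) (hg : F.Sm g) : F.box (f - g) p = F.box f p - F.box g p := by
  rw [box_apply, box_apply, box_apply, h.Dt_sub hp hf hg, h.lap_sub hp hf hg]; ring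

theorem box_sum {κ : Type} (s : Finset κ) {f : κ → ST → ℝ} (hf : ∀ i, F.Sm (f i)) :
    F.box (∑ i ∈ s, f i) p = ∑ i ∈ s, F.box (f i) p := by
  simpa only [mk_sum, h.mov_box, ev_mk, Finset.sum_apply] using
    congrArg (ev hp) (h.isMov.box_sum s fun i => mk' (f i) (hf i))

/-- functions of time -/
theorem lap_time {η : ℝ → ℝ} (hη : ContDiffAt ℝ 2 η p.2) : F.lap (fun q => η q.2) p = 0 := by
  rw [h.lap_comp hp sm_t hη]
  simp only [lap_apply, gam_apply, D_congr' hp fun q hq => h.D_t hq _, h.D_const hp, h.D_t hp,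
    Finset.sum_const_zero, mul_zero, add_zero]

theorem box_time {η : ℝ → ℝ} (hη : ContDiffAt ℝ 2 η p.2) :
    F.box (fun q => η q.2) p = deriv η p.2 := by
  rw [box_apply, h.lap_time hp hη, h.Dt_comp hp sm_t (hη.differentiableAt (by simp)).hasDerivAt,
    h.Dt_t hp, mul_one, sub_zero]

/-! ### evolution equations for a general normal speed -/

theorem Dt_H : F.Dt F.H p = -(F.lap F.V p + F.A2 p * F.V p) := by
  simpa only [map_neg, map_add, map_mul, h.mov_h, h.mov_T, h.mov_V, h.mov_lap, h.mov_a2, ev_mk]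
    using congrArg (ev hp) h.isMov.T_h

theorem Dt_x (a : Fin 3) : F.Dt (F.pre.x a) p = F.V p * F.nu a p := h.td_x hp (h.tg_vel hp) a

theorem lap_D (hf : F.Sm f) (a : Fin 3) : F.lap (F.D a f) p = F.D a (F.lap f) p
    - 2 * ∑ b, (∑ c, F.A a c p * F.A c b p) * F.D b f p + F.H p * ∑ b, F.A a b p * F.D b f p
    - 2 * F.nu a p * ∑ b, ∑ c, F.A b c p * F.D b (F.D c f) p - F.nu a p * F.gam F.H f p := by
  simpa only [map_sub, map_add, map_mul, map_sum, map_ofNat, Mov.B2, h.mov_D, h.mov_lap, h.mov_B,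
    h.mov_h, h.mov_n, h.mov_gam, ev_mk] using congrArg (ev hp) (h.isHyp.lap_D (mk' f hf) a)

end Reg

/-! ### the mean curvature flow -/

namespace IsMCF

variable (h : F.IsMCF) (hp : p ∈ F.M)
include h hp

theorem box_x (a : Fin 3) : F.box (F.pre.x a) p = 0 := by
  simpa only [h.1.mov_x, h.1.mov_box, ev_mk, map_zero] using
    congrArg (ev hp) (h.1.isMov.mcf_x h.mov_w a)

theorem box_nu (a : Fin 3) : F.box (F.nu a) p = F.A2 p * F.nu a p := by
  simpa only [h.1.mov_n, h.1.mov_box, h.1.mov_a2, ev_mk, map_mul] using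
    congrArg (ev hp) (h.1.isMov.mcf_n h.mov_w a)

theorem box_H : F.box F.H p = F.A2 p * F.H p := by
  simpa only [h.1.mov_h, h.1.mov_box, h.1.mov_a2, ev_mk, map_mul] using
    congrArg (ev hp) (h.1.isMov.mcf_h h.mov_w)

theorem box_A2 : F.box F.A2 p = -2 * F.GA p + 2 * F.A2 p * F.A2 p := by
  simpa only [h.1.mov_dB2, h.1.mov_box, h.1.mov_a2, ev_mk, map_mul, map_add, map_neg, map_ofNat]
    using congrArg (ev hp) (h.1.isMov.mcf_a2 h.mov_w)

theorem box_D (hf : F.Sm f) (a : Fin 3) : F.box (F.D a f) p = F.D a (F.box f) p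
    + 2 * ∑ b, (∑ c, F.A a c p * F.A c b p) * F.D b f p
    + 2 * F.nu a p * ∑ b, ∑ c, F.A b c p * F.D b (F.D c f) p := by
  simpa only [map_add, map_mul, map_sum, map_ofNat, Mov.B2, h.1.mov_D, h.1.mov_box, h.1.mov_B,
    h.1.mov_n, ev_mk] using congrArg (ev hp) (h.1.isMov.mcf_D h.mov_w (mk' f hf) a)

end IsMCF

end Mv

end Crest.Agent.N250

end
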